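import Vale.Agent.P050.Join.Ex

/-!
Perfect matchings are Sidorenko; bipartite graphs with two isolated non-edges.
-/

set_option linter.unusedSectionVars false

namespace Vale.Agent.P050.Join

open Finset Vale.Agent.P050.Lev Vale.Agent.P050.Cart

/-- the edges of the matching `I × Bool` -/
def matchE (I : Type) [Fintype I] [DecidableEq I] : Finset ((I × Bool) × (I × Bool)) :=
  univ.image fun i : I => ((i, false), (i, true))

theorem ksid_match (I : Type) [Fintype I] [DecidableEq I] :
    KSid (matchE I) (fun v => v.2) := by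
  refine ⟨?_, fun U _ m W m0 m1 hW => le_of_eq ?_⟩
  · intro e he
    simp only [matchE, Finset.mem_image, Finset.mem_univ, true_and] at he
    obtain ⟨i, rfl⟩ := he
    exact ⟨rfl, rfl⟩
  have hinj : Function.Injective fun i : I => (((i, false), (i, true)) : (I × Bool) × (I × Bool)) := by
    intro i j h
    simpa using congrArg (fun p => p.1.1) h
  have hc : (matchE I).card = Fintype.card I := by
    rw [matchE, Finset.card_image_of_injective _ hinj, Finset.card_univ]
  rw [hc, ← (Equiv.curry I Bool U).symm.sum_comp]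
  have h1 : ∀ z : I → Bool → U,
      (∏ v : I × Bool, m v.2 ((Equiv.curry I Bool U).symm z v)) *
        ∏ e ∈ matchE I, W ((Equiv.curry I Bool U).symm z e.1) ((Equiv.curry I Bool U).symm z e.2) =
      ∏ i, m false (z i false) * m true (z i true) * W (z i false) (z i true) := by
    intro z
    rw [Finset.prod_mul_distrib, Fintype.prod_prod_type]
    congr 1
    · refine Finset.prod_congr rfl fun i _ => ?_
      rw [Fintype.prod_bool, mul_comm]
      rfl
    · rw [matchE, Finset.prod_image fun x _ y _ hxy => hinj hxy]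
      rfl
  rw [Finset.sum_congr rfl fun z _ => h1 z]
  rw [← Fintype.prod_sum fun (_ : I) (w : Bool → U) =>
    m false (w false) * m true (w true) * W (w false) (w true), Finset.prod_const, Finset.card_univ,
    ← (Equiv.boolArrowEquivProd U).symm.sum_comp, Fintype.sum_prod_type]
  rfl

section two

variable {V : Type} [Fintype V] [DecidableEq V] {H : SimpleGraph V} {s : V → Bool}

/-- **Two isolated non-edges.** If `a₁ b₁` and `a₂ b₂` are isolated edges of the bipartite
complement of `H`, then `H` satisfies the two-sided Sidorenko inequality. -/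
theorem two_nonedges (hs : ∀ u v, H.Adj u v → s u ≠ s v) {a₁ a₂ b₁ b₂ : V} (ha : a₁ ≠ a₂)
    (hb : b₁ ≠ b₂) (sa₁ : s a₁ = false) (sa₂ : s a₂ = false) (sb₁ : s b₁ = true)
    (sb₂ : s b₂ = true) (h₁ : ∀ v, s v = true → (H.Adj a₁ v ↔ v ≠ b₁))
    (h₂ : ∀ v, s v = true → (H.Adj a₂ v ↔ v ≠ b₂))
    (h₃ : ∀ u, s u = false → (H.Adj u b₁ ↔ u ≠ a₁))
    (h₄ : ∀ u, s u = false → (H.Adj u b₂ ↔ u ≠ a₂)) : GSid H s := by
  classical
  let C : Finset V := {a₁, a₂, b₁, b₂}
  have hC : ∀ x, x ∈ C ↔ x = a₁ ∨ x = a₂ ∨ x = b₁ ∨ x = b₂ := by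
    intro x
    simp [C]
  let f : Bool × Bool → V := fun p => if p.2 then (if p.1 then b₁ else b₂) else
    (if p.1 then a₂ else a₁)
  have fC : ∀ p, f p ∈ C := by
    intro p
    rw [hC]
    rcases p with ⟨_ | _, _ | _⟩ <;> simp [f]
  have hab : ∀ {x y}, s x = false → s y = true → x ≠ y := by
    intro x y h h' h''
    rw [h'', h'] at h
    exact absurd h (by decide)
  have finj : Function.Injective f := by
    rintro ⟨_ | _, _ | _⟩ ⟨_ | _, _ | _⟩ h <;> simp only [f, Bool.false_eq_true, if_true, if_false] at h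
    all_goals first
      | rfl
      | exact absurd h ha
      | exact absurd h ha.symm
      | exact absurd h hb
      | exact absurd h hb.symm
      | exact absurd h (hab sa₁ sb₁)
      | exact absurd h (hab sa₁ sb₂)
      | exact absurd h (hab sa₂ sb₁)
      | exact absurd h (hab sa₂ sb₂)
      | exact absurd h.symm (hab sa₁ sb₁)
      | exact absurd h.symm (hab sa₁ sb₂)
      | exact absurd h.symm (hab sa₂ sb₁)
      | exact absurd h.symm (hab sa₂ sb₂)
  let φ : Bool × Bool ≃ (C : Set V) :=
    Equiv.ofBijective (fun p => ⟨f p, fC p⟩) ⟨fun a b h => finj (congrArg Subtype.val h), by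
      rintro ⟨x, hx⟩
      rcases (hC x).1 hx with rfl | rfl | rfl | rfl
      · exact ⟨(false, false), rfl⟩
      · exact ⟨(true, false), rfl⟩
      · exact ⟨(true, true), rfl⟩
      · exact ⟨(false, true), rfl⟩⟩
  have hφ : ∀ p, (φ p : V) = f p := fun p => rfl
  have hside : ∀ p, s (φ p : V) = p.2 := by
    rintro ⟨_ | _, _ | _⟩
    · exact sa₁
    · exact sb₂
    · exact sa₂
    · exact sb₁
  have n1 : ¬ H.Adj a₁ b₁ := fun h => ((h₁ b₁ sb₁).1 h) rfl
  have n2 : ¬ H.Adj a₂ b₂ := fun h => ((h₂ b₂ sb₂).1 h) rfl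
  have e1 : H.Adj a₁ b₂ := (h₁ b₂ sb₂).2 hb.symm
  have e2 : H.Adj a₂ b₁ := (h₂ b₁ sb₁).2 hb
  have hg : GSid (H.induce (C : Set V)) (fun v => s (v : V)) := by
    refine ⟨fun u v h => hs _ _ h, KSid.transport φ (ksid_match Bool) ?_ hside⟩
    intro p q
    simp only [sideEdges, Finset.mem_filter, Finset.mem_univ, true_and,
      SimpleGraph.comap_adj, Function.Embedding.subtype_apply, hφ, matchE, Finset.mem_image]
    rcases p with ⟨_ | _, _ | _⟩ <;> rcases q with ⟨_ | _, _ | _⟩ <;>
      simp [f, n1, n2, e1, e2, sa₁, sa₂, sb₁, sb₂]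
  have hne1 : ({a₁, a₂} : Finset V).card = 2 := Finset.card_pair ha
  have hne2 : ({b₁, b₂} : Finset V).card = 2 := Finset.card_pair hb
  have hcard : Nat.card (H.induce (C : Set V)).edgeSet = 2 := by
    rw [← card_sideEdges (H.induce (C : Set V)) (fun v => s v) hg.1]
    have : sideEdges (H.induce (C : Set V)) (fun v => s v) =
        (matchE Bool).image (Prod.map φ φ) := by
      ext ⟨u, v⟩
      obtain ⟨p, rfl⟩ := φ.surjective u
      obtain ⟨q, rfl⟩ := φ.surjective v
      simp only [sideEdges, Finset.mem_filter, Finset.mem_univ, true_and,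
        SimpleGraph.comap_adj, Function.Embedding.subtype_apply, hφ, matchE, Finset.mem_image,
        Prod.map_apply, Prod.mk.injEq, EmbeddingLike.apply_eq_iff_eq, Prod.exists]
      rcases p with ⟨_ | _, _ | _⟩ <;> rcases q with ⟨_ | _, _ | _⟩ <;>
        simp [f, n1, n2, e1, e2, sa₁, sa₂, sb₁, sb₂]
    rw [this, Finset.card_image_of_injective _ (φ.injective.prodMap φ.injective), matchE,
      Finset.card_image_of_injective, Finset.card_univ, Fintype.card_bool]
    intro i j h
    simpa using congrArg (fun p => p.1.1) h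
  have hfil : ∀ b : Bool, (C.filter fun v => s v = b).card ≤ 2 := by
    intro b
    cases b
    · rw [← hne1]
      refine Finset.card_le_card fun x hx => ?_
      rw [Finset.mem_filter, hC] at hx
      rcases hx.1 with rfl | rfl | rfl | rfl
      · simp
      · simp
      · exact absurd (sb₁.symm.trans hx.2) (by simp)
      · exact absurd (sb₂.symm.trans hx.2) (by simp)
    · rw [← hne2]
      refine Finset.card_le_card fun x hx => ?_
      rw [Finset.mem_filter, hC] at hx
      rcases hx.1 with rfl | rfl | rfl | rfl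
      · exact absurd (sa₁.symm.trans hx.2) (by simp)
      · exact absurd (sa₂.symm.trans hx.2) (by simp)
      · simp
      · simp
  refine join_main hs C ?_ ?_ hg ⟨a₁, (hC _).2 (Or.inl rfl), b₂, by rw [hC]; tauto, e1⟩
    (by rw [hcard]; exact hfil _) (by rw [hcard]; exact hfil _)
  · intro u hu hsu v hv hsv
    rcases (hC v).1 hv with rfl | rfl | rfl | rfl
    · exact absurd (sa₁.symm.trans hsv) (by simp)
    · exact absurd (sa₂.symm.trans hsv) (by simp)
    · exact (h₃ u hsu).2 fun h => hu (by rw [hC]; tauto)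
    · exact (h₄ u hsu).2 fun h => hu (by rw [hC]; tauto)
  · intro u hu hsu
    left
    intro v hv hsv
    rcases (hC v).1 hv with rfl | rfl | rfl | rfl
    · exact ((h₁ u hsu).2 fun h => hu (by rw [hC]; tauto)).symm
    · exact ((h₂ u hsu).2 fun h => hu (by rw [hC]; tauto)).symm
    · exact absurd (sb₁.symm.trans hsv) (by simp)
    · exact absurd (sb₂.symm.trans hsv) (by simp)

end two

end Vale.Agent.P050.Join
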