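import Vale.Agent.P050.Join.Copy
import Vale.Agent.P050.Cart.Product
import Vale.Agent.P050.Cart.Star

/-!
The conditional version of the Sidorenko law.
-/

set_option linter.unusedSectionVars false

namespace Vale.Agent.P050.Join

open Finset Vale.Agent.P050.Lev Vale.Agent.P050.Cart

section cond

variable {Z U V : Type} [Fintype Z] [Fintype U] [Fintype V] [DecidableEq V]
  {E : Finset (V × V)} {s : V → Bool}

/-- the law of the first coordinate -/
noncomputable def lz (L : Z × U × U → ℝ) (z : Z) : ℝ := mar L (fun ω => ω.1) z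

/-- the law of the first coordinate and of one of the others -/
noncomputable def lu (L : Z × U × U → ℝ) (b : Bool) (z : Z) (u : U) : ℝ :=
  mar L (fun ω => (ω.1, if b then ω.2.2 else ω.2.1)) (z, u)

/-- conditional vertex laws -/
noncomputable def cz (L : Z × U × U → ℝ) (z : Z) (b : Bool) (u : U) : ℝ := lu L b z u / lz L z

/-- conditional edge law -/
noncomputable def pz (L : Z × U × U → ℝ) (z : Z) (u v : U) : ℝ := L (z, u, v) / lz L z

variable {L : Z × U × U → ℝ} (hL : ∀ ω, 0 ≤ L ω)

theorem sum_lu (b : Bool) (z : Z) : ∑ u, lu L b z u = lz L z := by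
  unfold lu lz
  exact mar_fst L (fun ω => ω.1) (fun ω => if b then ω.2.2 else ω.2.1) z

theorem sum_false (z : Z) (u : U) : ∑ v, L (z, u, v) = lu L false z u := by
  have h1 := mar_fst L (fun ω => (ω.1, ω.2.1)) (fun ω => ω.2.2) (z, u)
  unfold lu
  simp only [Bool.false_eq_true, if_false]
  rw [← h1]
  refine Finset.sum_congr rfl fun v _ => ?_
  have h2 := mar_inj L (fun ω => ω) (e := fun ω : Z × U × U => ((ω.1, ω.2.1), ω.2.2)) (fun x y h => by
    simp only [Prod.mk.injEq] at h
    exact Prod.ext h.1.1 (Prod.ext h.1.2 h.2)) (z, u, v)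
  rw [mar_id] at h2
  exact h2.symm

theorem sum_true (z : Z) (v : U) : ∑ u, L (z, u, v) = lu L true z v := by
  have h1 := mar_fst L (fun ω => (ω.1, ω.2.2)) (fun ω => ω.2.1) (z, v)
  unfold lu
  simp only [if_true]
  rw [← h1]
  refine Finset.sum_congr rfl fun u _ => ?_
  have h2 := mar_inj L (fun ω => ω) (e := fun ω : Z × U × U => ((ω.1, ω.2.2), ω.2.1)) (fun x y h => by
    simp only [Prod.mk.injEq] at h
    exact Prod.ext h.1.1 (Prod.ext h.2 h.1.2)) (z, u, v)
  rw [mar_id] at h2
  exact h2.symm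

include hL

theorem lu_nonneg (b : Bool) (z : Z) (u : U) : 0 ≤ lu L b z u := mar_nonneg hL _ _

theorem lz_nonneg (z : Z) : 0 ≤ lz L z := mar_nonneg hL _ _

theorem lu_zero {z : Z} (h0 : lz L z = 0) (b : Bool) (u : U) : lu L b z u = 0 := by
  have h1 := sum_lu (L := L) b z
  rw [h0] at h1
  exact (Finset.sum_eq_zero_iff_of_nonneg fun u _ => lu_nonneg hL b z u).1 h1 u (mem_univ u)

theorem L_zero_of_false {z : Z} {u : U} (h0 : lu L false z u = 0) (v : U) : L (z, u, v) = 0 := by
  rw [← sum_false] at h0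
  exact (Finset.sum_eq_zero_iff_of_nonneg fun v _ => hL _).1 h0 v (mem_univ v)

theorem L_zero_of_true {z : Z} {v : U} (h0 : lu L true z v = 0) (u : U) : L (z, u, v) = 0 := by
  rw [← sum_true] at h0
  exact (Finset.sum_eq_zero_iff_of_nonneg fun u _ => hL _).1 h0 u (mem_univ u)

theorem L_zero {z : Z} (h0 : lz L z = 0) (u v : U) : L (z, u, v) = 0 :=
  L_zero_of_false hL (lu_zero hL h0 false u) v

/-- the conditional laws -/
theorem exists_mu (hE : KSid E s) : ∃ μ : Z → (V → U) → ℝ, ∀ z,
    (lz L z ≠ 0 → SidLaw E s (cz L z) (pz L z) (μ z)) ∧ (lz L z = 0 → μ z = 0) := by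
  classical
  have h : ∀ z, ∃ μ : (V → U) → ℝ, (lz L z ≠ 0 → SidLaw E s (cz L z) (pz L z) μ) ∧
      (lz L z = 0 → μ = 0) := by
    intro z
    by_cases h0 : lz L z = 0
    · exact ⟨0, fun h => absurd h0 h, fun _ => rfl⟩
    · obtain ⟨μ, hμ⟩ := KSid.sidLaw hE (c := cz L z) (π := pz L z)
        (fun b x => div_nonneg (lu_nonneg hL b z x) (lz_nonneg hL z))
        (fun b => by
          unfold cz
          rw [← Finset.sum_div, sum_lu, div_self h0])
        (fun x y => div_nonneg (hL _) (lz_nonneg hL z))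
        (fun x => by
          unfold pz cz
          rw [← Finset.sum_div, sum_false])
        (fun y => by
          unfold pz cz
          rw [← Finset.sum_div, sum_true])
      exact ⟨μ, fun _ => hμ, fun h => absurd h h0⟩
  choose μ hμ using h
  exact ⟨μ, hμ⟩

omit hL in
/-- the combined law -/
noncomputable def lam (L : Z × U × U → ℝ) (μ : Z → (V → U) → ℝ) (x : Z × (V → U)) : ℝ :=
  lz L x.1 * μ x.1 x.2

variable {μ : Z → (V → U) → ℝ} (hμ : ∀ z,
    (lz L z ≠ 0 → SidLaw E s (cz L z) (pz L z) (μ z)) ∧ (lz L z = 0 → μ z = 0))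

include hμ

theorem lam_nonneg (x : Z × (V → U)) : 0 ≤ lam L μ x := by
  unfold lam
  by_cases h0 : lz L x.1 = 0
  · rw [h0, zero_mul]
  · exact mul_nonneg (lz_nonneg hL _) (((hμ x.1).1 h0).nonneg _)

theorem sum_lam (F : Z → ℝ) : ∑ x, lam L μ x * F x.1 = ∑ ω, L ω * F ω.1 := by
  rw [← sum_mar L (fun ω => ω.1) F, Fintype.sum_prod_type]
  refine Finset.sum_congr rfl fun z _ => ?_
  unfold lam
  simp only
  rw [← Finset.sum_mul, ← Finset.mul_sum]
  by_cases h0 : lz L z = 0
  · rw [h0, zero_mul, zero_mul]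
    unfold lz at h0
    rw [h0, zero_mul]
  · rw [((hμ z).1 h0).total, mul_one]
    rfl

theorem lam_total (h1 : ∑ ω, L ω = 1) : ∑ x, lam L μ x = 1 := by
  have := sum_lam hL hμ fun _ => 1
  simp only [mul_one] at this
  rw [this, h1]

theorem sum_lam_vertex (v : V) (F : Z → U → ℝ) : ∑ x, lam L μ x * F x.1 (x.2 v) =
    ∑ ω, L ω * F ω.1 (if s v then ω.2.2 else ω.2.1) := by
  rw [← sum_mar L (fun ω => (ω.1, if s v then ω.2.2 else ω.2.1)) fun p => F p.1 p.2,
    Fintype.sum_prod_type, Fintype.sum_prod_type]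
  refine Finset.sum_congr rfl fun z _ => ?_
  unfold lam
  simp only
  by_cases h0 : lz L z = 0
  · rw [h0]
    simp only [zero_mul, Finset.sum_const_zero]
    refine (Finset.sum_eq_zero fun u _ => ?_).symm
    have := lu_zero hL h0 (s v) u
    unfold lu at this
    rw [this, zero_mul]
  · have h2 := ((hμ z).1 h0).vertex v fun u => F z u
    calc _ = lz L z * ∑ w, μ z w * F z (w v) := by
          rw [Finset.mul_sum]
          exact Finset.sum_congr rfl fun w _ => by ring
      _ = _ := by
          rw [h2, Finset.mul_sum]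
          refine Finset.sum_congr rfl fun u _ => ?_
          unfold cz
          rw [← mul_assoc, mul_div_cancel₀ _ h0]
          rfl

theorem sum_lam_edge {e : V × V} (he : e ∈ E) (F : Z → U → U → ℝ) :
    ∑ x, lam L μ x * F x.1 (x.2 e.1) (x.2 e.2) = ∑ ω, L ω * F ω.1 ω.2.1 ω.2.2 := by
  rw [Fintype.sum_prod_type, Fintype.sum_prod_type]
  refine Finset.sum_congr rfl fun z _ => ?_
  rw [Fintype.sum_prod_type]
  unfold lam
  simp only
  by_cases h0 : lz L z = 0
  · rw [h0]
    simp only [zero_mul, Finset.sum_const_zero]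
    refine (Finset.sum_eq_zero fun u _ => Finset.sum_eq_zero fun v _ => ?_).symm
    rw [L_zero hL h0, zero_mul]
  · have h2 := ((hμ z).1 h0).edge e he fun u v => F z u v
    calc _ = lz L z * ∑ w, μ z w * F z (w e.1) (w e.2) := by
          rw [Finset.mul_sum]
          exact Finset.sum_congr rfl fun w _ => by ring
      _ = _ := by
          rw [h2, Finset.mul_sum]
          refine Finset.sum_congr rfl fun u _ => ?_
          rw [Finset.mul_sum]
          refine Finset.sum_congr rfl fun v _ => ?_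
          unfold pz
          rw [← mul_assoc, mul_div_cancel₀ _ h0]

/-- the bound for one value of the first coordinate -/
theorem mu_bound (z : Z) : lz L z * ∑ w, μ z w * Real.log (μ z w) ≤
    E.card * (∑ u, ∑ v, L (z, u, v) * (Real.log (L (z, u, v)) - Real.log (lu L false z u) -
      Real.log (lu L true z v) + Real.log (lz L z))) +
    ∑ v, ∑ u, lu L (s v) z u * (Real.log (lu L (s v) z u) - Real.log (lz L z)) := by
  by_cases h0 : lz L z = 0
  · rw [h0, zero_mul]
    have e1 : ∀ u v, L (z, u, v) = 0 := L_zero hL h0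
    have e2 : ∀ b u, lu L b z u = 0 := lu_zero hL h0
    simp [e1, e2]
  have hs := (hμ z).1 h0
  have hb := hs.bound
  unfold tc Cart.inf at hb
  have hp : 0 < lz L z := lt_of_le_of_ne (lz_nonneg hL z) (Ne.symm h0)
  have e1 : ∑ w, μ z w * (Real.log (μ z w) - ∑ v, Real.log (cz L z (s v) (w v))) =
      ∑ w, μ z w * Real.log (μ z w) - ∑ v, ∑ u, cz L z (s v) u * Real.log (cz L z (s v) u) := by
    simp_rw [mul_sub, Finset.mul_sum]
    rw [Finset.sum_sub_distrib, Finset.sum_comm]
    congr 1
    exact Finset.sum_congr rfl fun v _ => hs.vertex v fun u => Real.log (cz L z (s v) u)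
  rw [e1] at hb
  have h2 := mul_le_mul_of_nonneg_left hb hp.le
  have e3 : lz L z * ∑ v, ∑ u, cz L z (s v) u * Real.log (cz L z (s v) u) =
      ∑ v, ∑ u, lu L (s v) z u * (Real.log (lu L (s v) z u) - Real.log (lz L z)) := by
    rw [Finset.mul_sum]
    refine Finset.sum_congr rfl fun v _ => ?_
    rw [Finset.mul_sum]
    refine Finset.sum_congr rfl fun u _ => ?_
    unfold cz
    by_cases h3 : lu L (s v) z u = 0
    · simp [h3]
    · rw [Real.log_div h3 h0, ← mul_assoc, mul_div_cancel₀ _ h0]
  have e4 : lz L z * ∑ x, ∑ y, pz L z x y *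
      (Real.log (pz L z x y) - Real.log (cz L z false x) - Real.log (cz L z true y)) =
      ∑ u, ∑ v, L (z, u, v) * (Real.log (L (z, u, v)) - Real.log (lu L false z u) -
      Real.log (lu L true z v) + Real.log (lz L z)) := by
    rw [Finset.mul_sum]
    refine Finset.sum_congr rfl fun u _ => ?_
    rw [Finset.mul_sum]
    refine Finset.sum_congr rfl fun v _ => ?_
    unfold cz pz
    by_cases h3 : L (z, u, v) = 0
    · simp [h3]
    · have h4 : lu L false z u ≠ 0 := fun h => h3 (L_zero_of_false hL h v)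
      have h5 : lu L true z v ≠ 0 := fun h => h3 (L_zero_of_true hL h u)
      rw [Real.log_div h3 h0, Real.log_div h4 h0, Real.log_div h5 h0, ← mul_assoc,
        mul_div_cancel₀ _ h0]
      ring
  rw [mul_sub, e3] at h2
  have e5 : lz L z * (E.card * ∑ x, ∑ y, pz L z x y *
      (Real.log (pz L z x y) - Real.log (cz L z false x) - Real.log (cz L z true y))) =
      E.card * (∑ u, ∑ v, L (z, u, v) * (Real.log (L (z, u, v)) - Real.log (lu L false z u) -
      Real.log (lu L true z v) + Real.log (lz L z))) := by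
    rw [← e4]
    ring
  rw [e5] at h2
  linarith

/-- the entropy of the combined law -/
theorem ent_lam : ent L (fun ω => ω.1) +
    ∑ v, (ent L (fun ω => (ω.1, if s v then ω.2.2 else ω.2.1)) - ent L (fun ω => ω.1)) -
    E.card * (ent L (fun ω => (ω.1, ω.2.1)) + ent L (fun ω => (ω.1, ω.2.2)) -
      ent L (fun ω => ω.1) - ent L (fun ω => ω)) ≤ ent (lam L μ) (fun x => x) := by
  have a1 : ent (lam L μ) (fun x => x) = ent L (fun ω => ω.1) -
      ∑ z, lz L z * ∑ w, μ z w * Real.log (μ z w) := by
    rw [ent_eq]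
    simp_rw [mar_id]
    rw [Fintype.sum_prod_type]
    have e1 : ∀ z, ∑ w, lam L μ (z, w) * Real.log (lam L μ (z, w)) =
        lz L z * Real.log (lz L z) + lz L z * ∑ w, μ z w * Real.log (μ z w) := by
      intro z
      unfold lam
      simp only
      by_cases h0 : lz L z = 0
      · simp [h0]
      have hs := (hμ z).1 h0
      have e2 : ∀ w, lz L z * μ z w * Real.log (lz L z * μ z w) =
          lz L z * Real.log (lz L z) * μ z w + lz L z * (μ z w * Real.log (μ z w)) := by
        intro w
        by_cases h1 : μ z w = 0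
        · simp [h1]
        · rw [Real.log_mul h0 h1]
          ring
      rw [Finset.sum_congr rfl fun w _ => e2 w, Finset.sum_add_distrib, ← Finset.mul_sum,
        ← Finset.mul_sum, hs.total, mul_one]
    rw [Finset.sum_congr rfl fun z _ => e1 z, Finset.sum_add_distrib]
    unfold ent lz
    ring
  have a2 : ∑ z, lz L z * Real.log (lz L z) = - ent L (fun ω => ω.1) := by
    unfold ent lz
    ring
  have a3 : ∀ b : Bool, ∑ z, ∑ u, lu L b z u * Real.log (lu L b z u) =
      - ent L (fun ω => (ω.1, if b then ω.2.2 else ω.2.1)) := by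
    intro b
    unfold ent lu
    rw [Fintype.sum_prod_type]
    ring
  have a4 : ∀ b : Bool, ∑ z, ∑ u, lu L b z u * Real.log (lz L z) = - ent L (fun ω => ω.1) := by
    intro b
    rw [← a2]
    refine Finset.sum_congr rfl fun z _ => ?_
    rw [← Finset.sum_mul, sum_lu]
  have a5 : ∑ z, ∑ u, ∑ v, L (z, u, v) * Real.log (L (z, u, v)) = - ent L (fun ω => ω) := by
    rw [ent_eq]
    simp_rw [mar_id]
    rw [Fintype.sum_prod_type, neg_neg]
    refine Finset.sum_congr rfl fun z _ => ?_
    rw [Fintype.sum_prod_type]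
  have a6 : ∑ z, ∑ u, ∑ v, L (z, u, v) * Real.log (lu L false z u) =
      - ent L (fun ω => (ω.1, ω.2.1)) := by
    have := a3 false
    simp only [Bool.false_eq_true, if_false] at this
    rw [← this]
    refine Finset.sum_congr rfl fun z _ => Finset.sum_congr rfl fun u _ => ?_
    rw [← Finset.sum_mul, sum_false]
  have a7 : ∑ z, ∑ u, ∑ v, L (z, u, v) * Real.log (lu L true z v) =
      - ent L (fun ω => (ω.1, ω.2.2)) := by
    have := a3 true
    simp only [if_true] at this
    rw [← this]
    refine Finset.sum_congr rfl fun z _ => ?_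
    rw [Finset.sum_comm]
    refine Finset.sum_congr rfl fun u _ => ?_
    rw [← Finset.sum_mul, sum_true]
  have a8 : ∑ z, ∑ u, ∑ v, L (z, u, v) * Real.log (lz L z) = - ent L (fun ω => ω.1) := by
    rw [← a4 false]
    refine Finset.sum_congr rfl fun z _ => Finset.sum_congr rfl fun u _ => ?_
    rw [← Finset.sum_mul, sum_false]
  have key := Finset.sum_le_sum fun z (_ : z ∈ (univ : Finset Z)) => mu_bound hL hμ z
  rw [Finset.sum_add_distrib, ← Finset.mul_sum] at key
  have b1 : ∑ z, ∑ u, ∑ v, L (z, u, v) * (Real.log (L (z, u, v)) - Real.log (lu L false z u) -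
      Real.log (lu L true z v) + Real.log (lz L z)) =
      ent L (fun ω => (ω.1, ω.2.1)) + ent L (fun ω => (ω.1, ω.2.2)) -
      ent L (fun ω => ω.1) - ent L (fun ω => ω) := by
    simp_rw [mul_add, mul_sub, Finset.sum_add_distrib, Finset.sum_sub_distrib]
    rw [a5, a6, a7, a8]
    ring
  have b2 : ∑ z, ∑ v, ∑ u, lu L (s v) z u * (Real.log (lu L (s v) z u) - Real.log (lz L z)) =
      - ∑ v, (ent L (fun ω => (ω.1, if s v then ω.2.2 else ω.2.1)) - ent L (fun ω => ω.1)) := by
    rw [Finset.sum_comm, ← Finset.sum_neg_distrib]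
    refine Finset.sum_congr rfl fun v _ => ?_
    simp_rw [mul_sub, Finset.sum_sub_distrib]
    rw [a3 (s v), a4 (s v)]
    ring
  rw [b1, b2] at key
  rw [a1]
  linarith

end cond

end Vale.Agent.P050.Join
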