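import Vale.Agent.P050.Lev.SGoodCore
import Vale.Agent.P050.Cart.Ent

/-!
Adding conditionally independent copies of a random variable.
-/

set_option linter.unusedSectionVars false

namespace Vale.Agent.P050.Join

open Finset Vale.Agent.P050.Cart

/-- laws are determined by expectations -/
theorem mar_of_sum {Ω Ω' α : Type} [Fintype Ω] [Fintype Ω'] {P : Ω → ℝ} {P' : Ω' → ℝ}
    {f : Ω → α} {f' : Ω' → α} (h : ∀ F : α → ℝ, ∑ ω, P ω * F (f ω) = ∑ ω, P' ω * F (f' ω)) (a : α) :
    mar P f a = mar P' f' a := by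
  classical
  have := h fun b => if b = a then 1 else 0
  simp only [mul_ite, mul_one, mul_zero] at this
  unfold mar
  exact this

section chain

variable {Ω α γ δ J : Type} [Fintype Ω] [Fintype α] [Fintype γ] [Fintype δ] [Fintype J]
  [DecidableEq J]

/-- the conditional law of `y` given `c` -/
noncomputable def ker (P : Ω → ℝ) (c : Ω → δ) (y : Ω → γ) (d : δ) (u : γ) : ℝ :=
  mar P (fun ω => (c ω, y ω)) (d, u) / mar P c d

theorem ker_nonneg {P : Ω → ℝ} (hP : ∀ ω, 0 ≤ P ω) (c : Ω → δ) (y : Ω → γ) (d : δ) (u : γ) :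
    0 ≤ ker P c y d u := div_nonneg (mar_nonneg hP _ _) (mar_nonneg hP _ _)

theorem sum_ker {P : Ω → ℝ} (c : Ω → δ) (y : Ω → γ) {d : δ}
    (h : mar P c d ≠ 0) : ∑ u, ker P c y d u = 1 := by
  unfold ker
  rw [← Finset.sum_div, mar_fst P c y d, div_self h]

theorem sum_ker_le {P : Ω → ℝ} (c : Ω → δ) (y : Ω → γ) (d : δ) :
    ∑ u, ker P c y d u ≤ 1 := by
  by_cases h : mar P c d = 0
  · unfold ker
    rw [h]
    simp
  · exact (sum_ker c y h).le

/-- the entropy of a pair, one coordinate being a vector -/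
theorem ent_chain {P : Ω → ℝ} (hP : ∀ ω, 0 ≤ P ω) (h1 : ∑ ω, P ω = 1) (f : Ω → α)
    (z : Ω → J → γ) (c : J → α → δ) :
    ent P (fun ω => (f ω, z ω)) ≤ ent P f + ∑ j, (ent P (fun ω => (c j (f ω), z ω j)) -
      ent P (fun ω => c j (f ω))) := by
  classical
  set T := mar P (fun ω => (f ω, z ω)) with hT
  set F := mar P f with hF
  set q : α × (J → γ) → ℝ := fun x => F x.1 * ∏ j, ker P (fun ω => c j (f ω)) (fun ω => z ω j)
    (c j x.1) (x.2 j) with hq
  have hF0 : ∀ a, 0 ≤ F a := mar_nonneg hP f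
  have hT0 : ∀ x, 0 ≤ T x := mar_nonneg hP _
  have hq0 : ∀ x, 0 ≤ q x := fun x =>
    mul_nonneg (hF0 _) (Finset.prod_nonneg fun j _ => ker_nonneg hP _ _ _ _)
  have hTs : ∑ x, T x = 1 := by rw [hT, mar_total, h1]
  have hqs : ∑ x, q x ≤ 1 := by
    rw [Fintype.sum_prod_type]
    have : ∀ a, ∑ w : J → γ, q (a, w) ≤ F a := by
      intro a
      simp only [hq]
      rw [← Finset.mul_sum]
      have h2 : ∑ w : J → γ, ∏ j, ker P (fun ω => c j (f ω)) (fun ω => z ω j) (c j a) (w j)
          = ∏ j, ∑ u, ker P (fun ω => c j (f ω)) (fun ω => z ω j) (c j a) u := by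
        rw [Finset.prod_univ_sum, Fintype.piFinset_univ]
      rw [h2]
      have h3 : ∏ j, ∑ u, ker P (fun ω => c j (f ω)) (fun ω => z ω j) (c j a) u ≤ 1 :=
        Finset.prod_le_one (fun j _ => Finset.sum_nonneg fun u _ => ker_nonneg hP _ _ _ _)
          fun j _ => sum_ker_le _ _ _
      calc _ ≤ F a * 1 := mul_le_mul_of_nonneg_left h3 (hF0 a)
        _ = F a := mul_one _
    calc _ ≤ ∑ a, F a := Finset.sum_le_sum fun a _ => this a
      _ = 1 := by rw [hF, mar_total, h1]
  have hne : ∀ ω, P ω ≠ 0 → q (f ω, z ω) ≠ 0 := by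
    intro ω h0
    simp only [hq]
    refine mul_ne_zero (mar_ne_zero hP f h0) (Finset.prod_ne_zero_iff.2 fun j _ => ?_)
    unfold ker
    exact div_ne_zero (mar_ne_zero hP (fun ω => (c j (f ω), z ω j)) h0)
      (mar_ne_zero hP (fun ω => c j (f ω)) h0)
  have hqT : ∀ x, q x = 0 → T x = 0 := by
    intro x hx
    rw [hT]
    unfold mar
    refine Finset.sum_eq_zero fun ω _ => ?_
    split_ifs with h
    · by_contra h0
      have h' : (f ω, z ω) = x := h
      exact hne ω h0 (by rw [h']; exact hx)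
    · rfl
  have key := Lev.gibbs' hT0 hq0 hqT hTs hqs
  have e1 : ∑ x, T x * Real.log (q x) = ∑ ω, P ω * Real.log (q (f ω, z ω)) :=
    sum_mar P (fun ω => (f ω, z ω)) fun x => Real.log (q x)
  have e2 : ∑ x, T x * Real.log (T x) = ∑ ω, P ω * Real.log (T (f ω, z ω)) :=
    sum_mar P (fun ω => (f ω, z ω)) fun x => Real.log (T x)
  rw [e1, e2] at key
  have e3 : ∀ ω, P ω * Real.log (q (f ω, z ω)) = P ω * Real.log (F (f ω)) +
      ∑ j, (P ω * Real.log (mar P (fun ω => (c j (f ω), z ω j)) (c j (f ω), z ω j)) -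
        P ω * Real.log (mar P (fun ω => c j (f ω)) (c j (f ω)))) := by
    intro ω
    by_cases h0 : P ω = 0
    · simp [h0]
    simp only [hq]
    rw [Real.log_mul (mar_ne_zero hP f h0) (Finset.prod_ne_zero_iff.2 fun j _ => ?_),
      Real.log_prod (s := univ) (hf := fun j _ => ?_), mul_add, Finset.mul_sum]
    · congr 1
      refine Finset.sum_congr rfl fun j _ => ?_
      unfold ker
      rw [Real.log_div (mar_ne_zero hP (fun ω => (c j (f ω), z ω j)) h0)
        (mar_ne_zero hP (fun ω => c j (f ω)) h0), mul_sub]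
    all_goals
      unfold ker
      exact div_ne_zero (mar_ne_zero hP (fun ω => (c j (f ω), z ω j)) h0)
        (mar_ne_zero hP (fun ω => c j (f ω)) h0)
  rw [Finset.sum_congr rfl fun ω _ => e3 ω, Finset.sum_add_distrib, Finset.sum_comm] at key
  rw [ent_eq, ent_eq P f]
  have e4 : ∑ j, (ent P (fun ω => (c j (f ω), z ω j)) - ent P (fun ω => c j (f ω))) =
      - ∑ j, ∑ ω, (P ω * Real.log (mar P (fun ω => (c j (f ω), z ω j)) (c j (f ω), z ω j)) -
        P ω * Real.log (mar P (fun ω => c j (f ω)) (c j (f ω)))) := by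
    rw [← Finset.sum_neg_distrib]
    refine Finset.sum_congr rfl fun j _ => ?_
    rw [ent_eq, ent_eq, Finset.sum_sub_distrib]
    ring
  rw [e4]
  linarith

/-- subadditivity -/
theorem ent_pi_le {P : Ω → ℝ} (hP : ∀ ω, 0 ≤ P ω) (h1 : ∑ ω, P ω = 1) (z : Ω → J → γ) :
    ent P z ≤ ∑ j, ent P (fun ω => z ω j) := by
  have h := ent_chain hP h1 (fun _ => ()) z (fun _ (_ : Unit) => ())
  have e0 : ent P (fun _ : Ω => ()) = 0 := by
    rw [ent_eq]
    have : mar P (fun _ : Ω => ()) () = 1 := by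
      unfold mar
      simp [h1]
    simp [this]
  rw [e0] at h
  have e1 : ent P (fun ω => ((), z ω)) = ent P z :=
    ent_inj P z (e := fun x : J → γ => ((), x)) fun x y h => (Prod.ext_iff.1 h).2
  have e2 : ∀ j, ent P (fun ω => ((), z ω j)) = ent P fun ω => z ω j := fun j =>
    ent_inj P (fun ω => z ω j) (e := fun x : γ => ((), x)) fun x y h => (Prod.ext_iff.1 h).2
  rw [e1] at h
  simp only [e2, sub_zero, zero_add] at h
  exact h

end chain

section copy

variable {Ω γ δ J : Type} [Fintype Ω] [Fintype γ] [Fintype δ] [Fintype J] [DecidableEq J]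

/-- conditionally independent copies of `y`, the `j`-th one given `c j` -/
noncomputable def cpy (P : Ω → ℝ) (c : J → Ω → δ) (y : Ω → γ) (x : Ω × (J → γ)) : ℝ :=
  P x.1 * ∏ j, ker P (c j) y (c j x.1) (x.2 j)

variable {P : Ω → ℝ} (hP : ∀ ω, 0 ≤ P ω) (c : J → Ω → δ) (y : Ω → γ)

include hP

theorem cpy_nonneg (x : Ω × (J → γ)) : 0 ≤ cpy P c y x :=
  mul_nonneg (hP _) (Finset.prod_nonneg fun _ _ => ker_nonneg hP _ _ _ _)

/-- integrate out all copies -/
theorem sum_cpy (F : Ω → ℝ) : ∑ x, cpy P c y x * F x.1 = ∑ ω, P ω * F ω := by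
  rw [Fintype.sum_prod_type]
  refine Finset.sum_congr rfl fun ω _ => ?_
  by_cases h0 : P ω = 0
  · simp [cpy, h0]
  simp only [cpy]
  have h2 : ∑ w : J → γ, ∏ j, ker P (c j) y (c j ω) (w j) = 1 := by
    have := (Finset.prod_univ_sum (fun _ : J => (univ : Finset γ))
      (fun j u => ker P (c j) y (c j ω) u)).symm
    rw [Fintype.piFinset_univ] at this
    rw [this]
    exact Finset.prod_eq_one fun j _ => sum_ker _ _ (mar_ne_zero hP (c j) h0)
  rw [← Finset.sum_mul, ← Finset.mul_sum, h2, mul_one]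

theorem cpy_total (h1 : ∑ ω, P ω = 1) : ∑ x, cpy P c y x = 1 := by
  have := sum_cpy hP c y fun _ => 1
  simp only [mul_one] at this
  rw [this, h1]

/-- integrate out all copies except one -/
theorem sum_cpy_one (i : J) (F : Ω → γ → ℝ) : ∑ x, cpy P c y x * F x.1 (x.2 i) =
    ∑ ω, ∑ u, P ω * ker P (c i) y (c i ω) u * F ω u := by
  rw [Fintype.sum_prod_type]
  refine Finset.sum_congr rfl fun ω _ => ?_
  by_cases h0 : P ω = 0
  · simp [cpy, h0]
  simp only [cpy]
  have h3 : ∑ w : J → γ, P ω * (∏ j, ker P (c j) y (c j ω) (w j)) * F ω (w i) =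
      P ω * ∑ w : J → γ, ∏ j, (ker P (c j) y (c j ω) (w j) * if j = i then F ω (w j) else 1) := by
    rw [Finset.mul_sum]
    refine Finset.sum_congr rfl fun w _ => ?_
    rw [Finset.prod_mul_distrib, Finset.prod_ite_eq' univ i, if_pos (mem_univ i), mul_assoc]
  rw [h3]
  have h4 := (Finset.prod_univ_sum (fun _ : J => (univ : Finset γ))
      (fun j u => ker P (c j) y (c j ω) u * if j = i then F ω u else 1)).symm
  rw [Fintype.piFinset_univ] at h4
  rw [h4, ← Finset.mul_prod_erase univ _ (mem_univ i)]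
  have h5 : ∏ j ∈ univ.erase i, ∑ u, (ker P (c j) y (c j ω) u * if j = i then F ω u else 1) = 1 := by
    refine Finset.prod_eq_one fun j hj => ?_
    simp only [if_neg (Finset.ne_of_mem_erase hj), mul_one]
    exact sum_ker _ _ (mar_ne_zero hP (c j) h0)
  rw [h5, mul_one, Finset.mul_sum]
  refine Finset.sum_congr rfl fun u _ => ?_
  rw [if_pos rfl, mul_assoc]

/-- the law of a copy together with the variable on which it is conditioned -/
theorem sum_cpy_pair (i : J) (F : δ → γ → ℝ) : ∑ x, cpy P c y x * F (c i x.1) (x.2 i) =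
    ∑ ω, P ω * F (c i ω) (y ω) := by
  rw [sum_cpy_one hP c y i fun ω u => F (c i ω) u]
  have h1 : ∀ ω, ∑ u, P ω * ker P (c i) y (c i ω) u * F (c i ω) u =
      P ω * (fun d => ∑ u, ker P (c i) y d u * F d u) (c i ω) := by
    intro ω
    simp only
    rw [Finset.mul_sum]
    exact Finset.sum_congr rfl fun u _ => by ring
  rw [Finset.sum_congr rfl fun ω _ => h1 ω,
    ← sum_mar P (c i) (fun d => ∑ u, ker P (c i) y d u * F d u)]
  have h2 := sum_mar P (fun ω => (c i ω, y ω)) fun x => F x.1 x.2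
  rw [← h2, Fintype.sum_prod_type]
  refine Finset.sum_congr rfl fun d _ => ?_
  rw [Finset.mul_sum]
  refine Finset.sum_congr rfl fun u _ => ?_
  unfold ker
  by_cases h0 : mar P (c i) d = 0
  · have h3 : mar P (fun ω => (c i ω, y ω)) (d, u) = 0 := by
      have := mar_fst P (c i) y d
      rw [h0] at this
      exact (Finset.sum_eq_zero_iff_of_nonneg fun u _ => mar_nonneg hP _ _).1 this u (mem_univ u)
    rw [h0, h3]
    simp
  · field_simp

theorem mar_cpy_fst {α : Type} (f : Ω → α) (a : α) :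
    mar (cpy P c y) (fun x => f x.1) a = mar P f a :=
  mar_of_sum (fun F => sum_cpy hP c y fun ω => F (f ω)) a

theorem mar_cpy_pair {β : Type} (i : J) (g : δ → β) (a : β × γ) :
    mar (cpy P c y) (fun x => (g (c i x.1), x.2 i)) a =
      mar P (fun ω => (g (c i ω), y ω)) a :=
  mar_of_sum (fun F => sum_cpy_pair hP c y i fun d v => F (g d, v)) a

theorem ent_cpy_fst {α : Type} [Fintype α] (f : Ω → α) :
    ent (cpy P c y) (fun x => f x.1) = ent P f :=
  ent_law fun a => mar_cpy_fst hP c y f a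

theorem ent_cpy_pair {β : Type} [Fintype β] (i : J) (g : δ → β) :
    ent (cpy P c y) (fun x => (g (c i x.1), x.2 i)) = ent P (fun ω => (g (c i ω), y ω)) :=
  ent_law fun a => mar_cpy_pair hP c y i g a

/-- the entropy of the whole law -/
theorem ent_cpy : ent (cpy P c y) (fun x => x) = ent P (fun ω => ω) +
    ∑ j, (ent P (fun ω => (c j ω, y ω)) - ent P (c j)) := by
  rw [ent_eq]
  have h0 : ∀ x : Ω × (J → γ), cpy P c y x * Real.log (mar (cpy P c y) (fun x => x) x) =
      cpy P c y x * Real.log (P x.1) +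
      ∑ j, (cpy P c y x * (Real.log (mar P (fun ω => (c j ω, y ω)) (c j x.1, x.2 j)) -
        Real.log (mar P (c j) (c j x.1)))) := by
    intro x
    rw [mar_id]
    by_cases hx : cpy P c y x = 0
    · simp [hx]
    have h1 : P x.1 ≠ 0 := fun h => hx (by simp [cpy, h])
    have h2 : ∀ j, ker P (c j) y (c j x.1) (x.2 j) ≠ 0 := by
      intro j h
      refine hx ?_
      unfold cpy
      rw [Finset.prod_eq_zero (mem_univ j) h, mul_zero]
    have h3 : Real.log (cpy P c y x) = Real.log (P x.1) +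
        ∑ j, Real.log (ker P (c j) y (c j x.1) (x.2 j)) := by
      unfold cpy
      rw [Real.log_mul h1 (Finset.prod_ne_zero_iff.2 fun j _ => h2 j),
        Real.log_prod (s := univ) (hf := fun j _ => h2 j)]
    rw [h3, mul_add, Finset.mul_sum]
    congr 1
    refine Finset.sum_congr rfl fun j _ => ?_
    have h4 := h2 j
    unfold ker at h4 ⊢
    have h5 := div_ne_zero_iff.1 h4
    rw [Real.log_div h5.1 h5.2]
  rw [Finset.sum_congr rfl fun x _ => h0 x, Finset.sum_add_distrib, Finset.sum_comm]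
  rw [sum_cpy hP c y fun ω => Real.log (P ω)]
  have h6 : ∀ j, ∑ x : Ω × (J → γ), cpy P c y x * (Real.log (mar P (fun ω => (c j ω, y ω))
      (c j x.1, x.2 j)) - Real.log (mar P (c j) (c j x.1))) =
      ∑ ω, P ω * (Real.log (mar P (fun ω => (c j ω, y ω)) (c j ω, y ω)) -
        Real.log (mar P (c j) (c j ω))) := fun j =>
    sum_cpy_pair hP c y j fun d u => Real.log (mar P (fun ω => (c j ω, y ω)) (d, u)) -
        Real.log (mar P (c j) d)
  rw [Finset.sum_congr rfl fun j _ => h6 j]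
  rw [ent_eq P fun ω => ω, neg_add]
  simp_rw [mar_id]
  congr 1
  rw [← Finset.sum_neg_distrib]
  refine Finset.sum_congr rfl fun j _ => ?_
  rw [ent_eq, ent_eq, ← Finset.sum_neg_distrib, ← Finset.sum_neg_distrib, ← Finset.sum_neg_distrib,
    ← Finset.sum_sub_distrib]
  exact Finset.sum_congr rfl fun ω _ => by ring

end copy

end Vale.Agent.P050.Join
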