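import Vale.Agent.P050.Join.Graph
import Vale.Agent.P050.Lev.Final

/-!
The bipartite join of two graphs, and bipartite graphs with two isolated non-edges.
-/

set_option linter.unusedSectionVars false

namespace Vale.Agent.P050.Join

open Finset Vale.Agent.P050.Lev Vale.Agent.P050.Cart

/-- The bipartite join of `F₁` and `F₂`: the disjoint union, together with all pairs
`u ∈ F₁`, `v ∈ F₂` on different sides. -/
def bjoin {V₁ V₂ : Type} (F₁ : SimpleGraph V₁) (F₂ : SimpleGraph V₂) (s₁ : V₁ → Bool)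
    (s₂ : V₂ → Bool) : SimpleGraph (V₁ ⊕ V₂) where
  Adj
    | Sum.inl u, Sum.inl v => F₁.Adj u v
    | Sum.inr u, Sum.inr v => F₂.Adj u v
    | Sum.inl u, Sum.inr v => s₁ u ≠ s₂ v
    | Sum.inr u, Sum.inl v => s₂ u ≠ s₁ v
  symm := ⟨by
    rintro (u | u) (v | v) h
    · exact F₁.symm.symm _ _ h
    · exact Ne.symm h
    · exact Ne.symm h
    · exact F₂.symm.symm _ _ h⟩
  loopless := ⟨by
    rintro (u | u) h
    · exact F₁.loopless.irrefl _ h
    · exact F₂.loopless.irrefl _ h⟩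

section join

variable {V₁ V₂ : Type} [Fintype V₁] [DecidableEq V₁] [Fintype V₂] [DecidableEq V₂]
  {F₁ : SimpleGraph V₁} {F₂ : SimpleGraph V₂} {s₁ : V₁ → Bool} {s₂ : V₂ → Bool}

theorem bjoin_gsid (h₁ : ∀ u v, F₁.Adj u v → s₁ u ≠ s₁ v) (h₂ : GSid F₂ s₂)
    (he : ∃ u v, F₂.Adj u v)
    (hf : (univ.filter fun v => s₂ v = false).card ≤ Nat.card F₂.edgeSet)
    (ht : (univ.filter fun v => s₂ v = true).card ≤ Nat.card F₂.edgeSet) :
    GSid (bjoin F₁ F₂ s₁ s₂) (Sum.elim s₁ s₂) := by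
  classical
  let C : Finset (V₁ ⊕ V₂) := univ.map ⟨Sum.inr, Sum.inr_injective⟩
  have hC : ∀ x, x ∈ C ↔ ∃ v, x = Sum.inr v := by
    intro x
    simp only [C, Finset.mem_map, Finset.mem_univ, true_and, Function.Embedding.coeFn_mk]
    exact ⟨fun ⟨v, h⟩ => ⟨v, h.symm⟩, fun ⟨v, h⟩ => ⟨v, h.symm⟩⟩
  have hCl : ∀ u, u ∉ C → ∃ a, u = Sum.inl a := by
    rintro (a | b) h
    · exact ⟨a, rfl⟩
    · exact absurd ((hC _).2 ⟨b, rfl⟩) h
  let φ : V₂ ≃ (C : Set (V₁ ⊕ V₂)) :=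
    Equiv.ofBijective (fun v => ⟨Sum.inr v, (hC _).2 ⟨v, rfl⟩⟩) ⟨fun a b h => by
      simpa using congrArg Subtype.val h, by
      rintro ⟨x, hx⟩
      obtain ⟨v, rfl⟩ := (hC x).1 hx
      exact ⟨v, rfl⟩⟩
  have hadj : ∀ a b, ((bjoin F₁ F₂ s₁ s₂).induce (C : Set (V₁ ⊕ V₂))).Adj (φ a) (φ b) ↔
      F₂.Adj a b := fun a b => Iff.rfl
  have hside : ∀ a, Sum.elim s₁ s₂ (φ a : V₁ ⊕ V₂) = s₂ a := fun a => rfl
  have hcol : ∀ u v, (bjoin F₁ F₂ s₁ s₂).Adj u v → Sum.elim s₁ s₂ u ≠ Sum.elim s₁ s₂ v := by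
    rintro (u | u) (v | v) h
    · exact h₁ _ _ h
    · exact h
    · exact h
    · exact h₂.1 _ _ h
  have hg : GSid ((bjoin F₁ F₂ s₁ s₂).induce (C : Set (V₁ ⊕ V₂)))
      (fun v => Sum.elim s₁ s₂ (v : V₁ ⊕ V₂)) := by
    refine ⟨fun u v h => hcol _ _ h, KSid.transport φ h₂.2 ?_ hside⟩
    intro a b
    simp only [sideEdges, Finset.mem_filter, Finset.mem_univ, true_and]
    rw [hadj, hside, hside]
  have hcard : Nat.card ((bjoin F₁ F₂ s₁ s₂).induce (C : Set (V₁ ⊕ V₂))).edgeSet =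
      Nat.card F₂.edgeSet :=
    Nat.card_congr (SimpleGraph.Iso.mapEdgeSet ⟨φ, hadj _ _⟩).symm
  have hfil : ∀ b : Bool, (C.filter fun v => Sum.elim s₁ s₂ v = b).card =
      (univ.filter fun v => s₂ v = b).card := by
    intro b
    rw [Finset.filter_map, Finset.card_map]
    rfl
  refine join_main hcol C ?_ ?_ hg ?_ (by rw [hcard, hfil]; exact hf)
    (by rw [hcard, hfil]; exact ht)
  · intro u hu hsu v hv hsv
    obtain ⟨a, rfl⟩ := hCl u hu
    obtain ⟨b, rfl⟩ := (hC v).1 hv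
    change s₁ a ≠ s₂ b
    change s₁ a = false at hsu
    change s₂ b = true at hsv
    rw [hsu, hsv]
    decide
  · intro u hu hsu
    left
    intro v hv hsv
    obtain ⟨a, rfl⟩ := hCl u hu
    obtain ⟨b, rfl⟩ := (hC v).1 hv
    change s₁ a ≠ s₂ b
    change s₁ a = true at hsu
    change s₂ b = false at hsv
    rw [hsu, hsv]
    decide
  · obtain ⟨u, v, h⟩ := he
    exact ⟨Sum.inr u, (hC _).2 ⟨u, rfl⟩, Sum.inr v, (hC _).2 ⟨v, rfl⟩, h⟩

end join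

end Vale.Agent.P050.Join
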