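import Vale.Agent.P050.Join.Main

/-!
The join theorem for graphs.
-/

set_option linter.unusedSectionVars false

namespace Vale.Agent.P050.Join

open Finset Vale.Agent.P050.Lev Vale.Agent.P050.Cart

/-- relabelling of the vertices -/
theorem KSid.transport {V V' : Type} [Fintype V] [DecidableEq V] [Fintype V'] [DecidableEq V']
    (φ : V ≃ V') {E : Finset (V × V)} {s : V → Bool} (h : KSid E s)
    {E' : Finset (V' × V')} {s' : V' → Bool} (hE : ∀ a b, (φ a, φ b) ∈ E' ↔ (a, b) ∈ E)
    (hs : ∀ a, s' (φ a) = s a) : KSid E' s' := by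
  have hEE : E' = E.image (Prod.map φ φ) := by
    ext ⟨u, v⟩
    obtain ⟨a, rfl⟩ := φ.surjective u
    obtain ⟨b, rfl⟩ := φ.surjective v
    rw [hE, Finset.mem_image]
    constructor
    · exact fun h => ⟨(a, b), h, rfl⟩
    · rintro ⟨⟨c, d⟩, h, h'⟩
      simp only [Prod.map_apply, Prod.mk.injEq, EmbeddingLike.apply_eq_iff_eq] at h'
      rw [← h'.1, ← h'.2]
      exact h
  refine ⟨?_, fun U _ m W m0 m1 hW => ?_⟩
  · rintro ⟨u, v⟩ he
    obtain ⟨a, rfl⟩ := φ.surjective u
    obtain ⟨b, rfl⟩ := φ.surjective v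
    rw [hE] at he
    simp only [hs]
    exact h.1 _ he
  have key := h.2 U m W m0 m1 hW
  have hinj : Function.Injective (Prod.map φ φ) := φ.injective.prodMap φ.injective
  have hc : E'.card = E.card := by rw [hEE, Finset.card_image_of_injective _ hinj]
  rw [hc]
  refine key.trans (le_of_eq ?_)
  rw [← Equiv.sum_comp (φ.arrowCongr (Equiv.refl U))]
  refine Finset.sum_congr rfl fun z _ => ?_
  have h1 : ∀ a, (φ.arrowCongr (Equiv.refl U)) z (φ a) = z a := by
    intro a
    simp [Equiv.arrowCongr]
  congr 1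
  · rw [← Equiv.prod_comp φ]
    exact Finset.prod_congr rfl fun a _ => by rw [hs, h1]
  · rw [hEE, Finset.prod_image fun x _ y _ hxy => hinj hxy]
    refine Finset.prod_congr rfl fun e _ => ?_
    simp only [Prod.map_fst, Prod.map_snd, h1]

section graph

variable {V : Type} [Fintype V] [DecidableEq V] {H : SimpleGraph V} {s : V → Bool}

/-- **The join theorem.** Let `C` be a set of vertices such that `H[C]` satisfies the two-sided
Sidorenko inequality and has at least as many edges as vertices on either side, at least one; let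
the vertices outside `C` on the side `false` be adjacent to all vertices of `C` on the side `true`,
and the vertices outside `C` on the side `true` to all or to none of the vertices of `C` on the side
`false`. Then `H` satisfies the two-sided Sidorenko inequality. -/
theorem join_main (hs : ∀ u v, H.Adj u v → s u ≠ s v) (C : Finset V)
    (hA : ∀ u, u ∉ C → s u = false → ∀ v ∈ C, s v = true → H.Adj u v)
    (hB : ∀ u, u ∉ C → s u = true → (∀ v ∈ C, s v = false → H.Adj u v) ∨
      ∀ v ∈ C, ¬ H.Adj u v)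
    (hC : GSid (H.induce (C : Set V)) fun v => s v)
    (he : ∃ u ∈ C, ∃ v ∈ C, H.Adj u v)
    (hf : (C.filter fun v => s v = false).card ≤ Nat.card (H.induce (C : Set V)).edgeSet)
    (ht : (C.filter fun v => s v = true).card ≤ Nat.card (H.induce (C : Set V)).edgeSet) :
    GSid H s := by
  classical
  refine ⟨hs, ?_⟩
  set E := sideEdges (H.induce (C : Set V)) (fun v => s v) with hE
  let A := {v : V // v ∉ C ∧ s v = false}
  let B := {v : V // v ∉ C ∧ s v = true}
  let i : (A ⊕ B) ⊕ (C : Set V) → V := Sum.elim (Sum.elim Subtype.val Subtype.val) Subtype.val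
  have bi : Function.Bijective i := by
    constructor
    · rintro ((⟨x, hx⟩ | ⟨x, hx⟩) | ⟨x, hx⟩) ((⟨y, hy⟩ | ⟨y, hy⟩) | ⟨y, hy⟩) h <;>
        simp only [i, Sum.elim_inl, Sum.elim_inr] at h <;> subst h
      · rfl
      · exact absurd (hx.2.symm.trans hy.2) (by simp)
      · exact absurd hy hx.1
      · exact absurd (hy.2.symm.trans hx.2) (by simp)
      · rfl
      · exact absurd hy hx.1
      · exact absurd hx hy.1
      · exact absurd hx hy.1
      · rfl
    · intro x
      by_cases hx : x ∈ C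
      · exact ⟨Sum.inr ⟨x, hx⟩, rfl⟩
      · cases hsx : s x
        · exact ⟨Sum.inl (Sum.inl ⟨x, hx, hsx⟩), rfl⟩
        · exact ⟨Sum.inl (Sum.inr ⟨x, hx, hsx⟩), rfl⟩
  have hcard : ∀ b : Bool, (univ.filter fun c : (C : Set V) => s c = b).card =
      (C.filter fun v => s v = b).card := by
    intro b
    refine Finset.card_nbij (fun c => (c : V)) ?_ ?_ ?_
    · intro c hc
      rw [Finset.mem_coe, Finset.mem_filter] at hc ⊢
      exact ⟨c.2, hc.2⟩
    · intro c _ d _ h
      exact Subtype.ext h
    · intro x hx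
      rw [Finset.mem_coe, Finset.mem_filter] at hx
      exact ⟨⟨x, hx.1⟩, by simpa using hx.2, rfl⟩
  have hEc : E.card = Nat.card (H.induce (C : Set V)).edgeSet :=
    card_sideEdges (H.induce (C : Set V)) (fun v => s v) hC.1
  obtain ⟨u, hu, v, hv, huv⟩ := he
  have hne : (1 ≤ (univ.filter fun c : (C : Set V) => s c = false).card) ∧
      1 ≤ (univ.filter fun c : (C : Set V) => s c = true).card := by
    rw [hcard, hcard, Nat.one_le_iff_ne_zero, Nat.one_le_iff_ne_zero, Finset.card_ne_zero,
      Finset.card_ne_zero]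
    have h1 := hs u v huv
    cases hsu : s u <;> cases hsv : s v
    · exact absurd (hsu.trans hsv.symm) h1
    · exact ⟨⟨u, by simp [hu, hsu]⟩, ⟨v, by simp [hv, hsv]⟩⟩
    · exact ⟨⟨v, by simp [hv, hsv]⟩, ⟨u, by simp [hu, hsu]⟩⟩
    · exact absurd (hsu.trans hsv.symm) h1
  have key := KSid.join (A := A) (B := B) hC.2 hne.1 hne.2 (by rw [hcard, hEc]; exact hf)
    (by rw [hcard, hEc]; exact ht) (fun a b => H.Adj a b) (fun b => ∃ v ∈ C, H.Adj b v)
  refine KSid.transport (Equiv.ofBijective i bi) key ?_ ?_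
  · intro a b
    change (i a, i b) ∈ sideEdges H s ↔ _
    rw [mem_jE]
    simp only [sideEdges, Finset.mem_filter, Finset.mem_univ, true_and]
    rcases a with (⟨a, ha⟩ | ⟨a, ha⟩) | ⟨a, ha⟩ <;> rcases b with (⟨b, hb⟩ | ⟨b, hb⟩) | ⟨b, hb⟩ <;>
      simp only [i, Sum.elim_inl, Sum.elim_inr, jadj]
    · simp [hb.2]
    · simp [ha.2, hb.2]
    · constructor
      · exact fun h => h.2.2
      · exact fun h => ⟨hA a ha.1 ha.2 b hb h, ha.2, h⟩
    · simp [ha.2]
    · simp [ha.2]
    · simp [ha.2]
    · simp [hb.2]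
    · constructor
      · exact fun h => ⟨h.2.1, a, ha, h.1.symm⟩
      · rintro ⟨h1, w, hw, h2⟩
        rcases hB b hb.1 hb.2 with h3 | h3
        · exact ⟨(h3 a ha h1).symm, h1, hb.2⟩
        · exact absurd h2 (h3 w hw)
    · simp [sideEdges]
  · intro a
    change s (i a) = _
    rcases a with (⟨a, ha⟩ | ⟨a, ha⟩) | ⟨a, ha⟩
    · exact ha.2
    · exact ha.2
    · rfl

end graph

end Vale.Agent.P050.Join
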