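import Vale.Agent.P050.Join.Star

/-!
The law of the graph with a dominating vertex `y₀`, a neighbour `x₂` of it, and an arbitrary rest
`f = (x_a, y_b)`; five entropy bounds.
-/

set_option linter.unusedSectionVars false

namespace Vale.Agent.P050.Join

open Finset Vale.Agent.P050.Cart

section law

variable {A B U : Type} [Fintype A] [DecidableEq A] [Fintype B] [DecidableEq B] [Fintype U]
  {m : Bool → U → ℝ} {π : U → U → ℝ}

/-- the law of `(((x₂, y₀), (x_a)_a), (y_b)_b)` -/
noncomputable def jl (π : U → U → ℝ) (N : B → Finset (Option A)) :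
    ((U × U) × (A → U)) × (B → U) → ℝ :=
  cpy (st1 A π) (fun b ω => mk (N b) (xv ω)) (fun ω => ω.1.2)

/-- the coordinates in `S` of a vector without the coordinate `none` -/
def mx (S : Finset (Option A)) (X : A → U) : Option A → Option U :=
  fun a => if a ∈ S then a.elim none (fun a' => some (X a')) else none

theorem mx_eq {S : Finset (Option A)} (hS : none ∉ S) (ω : (U × U) × (A → U)) :
    mx S ω.2 = mk S (xv ω) := by
  funext a
  unfold mx mk
  rcases a with _ | a
  · simp [hS]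
  · rfl

/-- restriction to `S` -/
def rs (S : Finset (Option A)) (d : Option A → Option U) : Option A → Option U :=
  fun a => if a ∈ S then d a else none

theorem rs_mk {S S' : Finset (Option A)} (hS : S' ⊆ S) (g : Option A → U) :
    rs S' (mk S g) = mk S' g := by
  funext a
  unfold rs mk
  by_cases ha : a ∈ S'
  · simp [ha, hS ha]
  · simp [ha]

variable (h : Base m π) (N : B → Finset (Option A))

/-- the neighbours without `none` -/
def pn (b : B) : Finset (Option A) := (N b).erase none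

theorem pn_sub (b : B) : pn N b ⊆ N b := Finset.erase_subset _ _

theorem none_pn (b : B) : none ∉ pn N b := Finset.notMem_erase _ _

/-- `1` if `none` is a neighbour -/
def kn (b : B) : ℕ := if none ∈ N b then 1 else 0

theorem card_pn (b : B) : (N b).card = (pn N b).card + kn N b := by
  unfold pn kn
  split_ifs with hb
  · rw [Finset.card_erase_add_one hb]
  · rw [Finset.erase_eq_of_notMem hb, add_zero]

include h

theorem jl_nonneg (ω) : 0 ≤ jl π N ω := cpy_nonneg (st1_nonneg h) _ _ _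

theorem jl_total : ∑ ω, jl π N ω = 1 := cpy_total (st1_nonneg h) _ _ (st1_total h)

theorem ent_jl_st {α : Type} [Fintype α] (f : (U × U) × (A → U) → α) :
    ent (jl π N) (fun ω => f ω.1) = ent (st1 A π) f :=
  ent_cpy_fst (st1_nonneg h) _ _ f

theorem jl_edge (a : Option A) (F : U → U → ℝ) :
    ∑ ω, jl π N ω * F (xv ω.1 a) ω.1.1.2 = ∑ x, ∑ y, π x y * F x y :=
  (sum_cpy (st1_nonneg h) (fun b ω => mk (N b) (xv ω)) (fun ω => ω.1.2)
    fun ω => F (xv ω a) ω.1.2).trans (st1_edge h a F)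

theorem jl_edge' (b : B) {a : Option A} (ha : a ∈ N b) (F : U → U → ℝ) :
    ∑ ω, jl π N ω * F (xv ω.1 a) (ω.2 b) = ∑ x, ∑ y, π x y * F x y := by
  have h1 := sum_cpy_pair (st1_nonneg h) (fun b ω => mk (N b) (xv ω)) (fun ω => ω.1.2) b
    fun d y => (d a).elim 0 fun x => F x y
  simp only [mk, ha, if_true, Option.elim_some] at h1
  exact h1.trans (st1_edge h a F)

theorem jl_vertex (b : B) (F : U → ℝ) :
    ∑ ω, jl π N ω * F (ω.2 b) = ∑ y, m true y * F y := by
  have h1 := sum_cpy_pair (st1_nonneg h) (fun b ω => mk (N b) (xv ω)) (fun ω => ω.1.2) b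
    fun _ y => F y
  refine h1.trans ((st1_edge h none fun _ y => F y).trans ?_)
  rw [Finset.sum_comm]
  refine Finset.sum_congr rfl fun y _ => ?_
  rw [← Finset.sum_mul, h.col]

/-- the entropy of the whole law -/
theorem ent_jl : ent (jl π N) (fun ω => ω) = ent (st1 A π) (fun ω => ω) +
    ∑ b, dd A π (N b) :=
  ent_cpy (st1_nonneg h) _ _

/-- bound by the entropies of the copies, the leaf `none` being seen -/
theorem ent_jl_le : ent (jl π N) (fun ω => ((ω.1.1.1, ω.1.2), ω.2)) ≤
    ent (st1 A π) (fun ω => (ω.1.1, ω.2)) + ∑ b, dd A π (N b) := by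
  let g : U × (A → U) → Option A → U := fun p a => a.elim p.1 p.2
  have h1 := ent_chain (jl_nonneg h N) (jl_total h N) (fun ω => (ω.1.1.1, ω.1.2))
    (fun ω => ω.2) (fun b p => mk (N b) (g p))
  rw [ent_jl_st h N fun ω => (ω.1.1, ω.2)] at h1
  refine h1.trans ?_
  rw [add_le_add_iff_left]
  refine Finset.sum_le_sum fun b _ => ?_
  have e1 : ent (jl π N) (fun ω => (mk (N b) (g (ω.1.1.1, ω.1.2)), ω.2 b)) =
      ent (st1 A π) (fun ω => (mk (N b) (xv ω), ω.1.2)) :=
    ent_cpy_pair (st1_nonneg h) (fun b ω => mk (N b) (xv ω)) (fun ω => ω.1.2) b fun d => d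
  have e2 : ent (jl π N) (fun ω => mk (N b) (g (ω.1.1.1, ω.1.2))) =
      ent (st1 A π) (fun ω => mk (N b) (xv ω)) :=
    ent_jl_st h N fun ω => mk (N b) (xv ω)
  rw [e1, e2]
  exact le_rfl

/-- bound by the entropies of the copies, the leaf `none` not being seen -/
theorem ent_jl_le' {α : Type} [Fintype α] (c : (U × U) × (A → U) → α) :
    ent (jl π N) (fun ω => ((c ω.1, ω.1.2), ω.2)) ≤
      ent (st1 A π) (fun ω => (c ω, ω.2)) + ∑ b, dd A π (pn N b) := by
  have h1 := ent_chain (jl_nonneg h N) (jl_total h N) (fun ω => (c ω.1, ω.1.2))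
    (fun ω => ω.2) (fun b p => mx (pn N b) p.2)
  rw [ent_jl_st h N fun ω => (c ω, ω.2)] at h1
  refine h1.trans ?_
  rw [add_le_add_iff_left]
  refine Finset.sum_le_sum fun b _ => ?_
  have e1 : ent (jl π N) (fun ω => (mx (pn N b) ω.1.2, ω.2 b)) =
      ent (st1 A π) (fun ω => (mk (pn N b) (xv ω), ω.1.2)) := by
    have := ent_cpy_pair (st1_nonneg h) (fun b ω => mk (N b) (xv ω)) (fun ω => ω.1.2) b
      (rs (pn N b))
    simp only [rs_mk (pn_sub N b)] at this
    rw [← this]
    unfold jl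
    congr 1
    funext ω
    rw [mx_eq (none_pn N b)]
  have e2 : ent (jl π N) (fun ω => mx (pn N b) ω.1.2) =
      ent (st1 A π) (fun ω => mk (pn N b) (xv ω)) := by
    have := ent_jl_st h N fun ω => mk (pn N b) (xv ω)
    rw [← this]
    congr 1
    funext ω
    rw [mx_eq (none_pn N b)]
  rw [e1, e2]
  exact le_rfl

theorem sum_dd : ∑ b, dd A π (pn N b) ≤ ∑ b, dd A π (N b) + (∑ b, kn N b : ℕ) * ii m π := by
  push_cast
  rw [Finset.sum_mul, ← Finset.sum_add_distrib]
  refine Finset.sum_le_sum fun b _ => ?_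
  have h1 := dd_ge h (pn_sub N b)
  have h2 : ((N b).card : ℝ) = (pn N b).card + kn N b := by
    rw [card_pn N b]
    push_cast
    rfl
  rw [h2] at h1
  linarith

theorem sum_dd_ge : (Fintype.card B : ℝ) * hm m true - (∑ b, (N b).card : ℕ) * ii m π ≤
    ∑ b, dd A π (N b) := by
  push_cast
  rw [Finset.sum_mul]
  have h1 : ∀ b, hm m true - ((N b).card : ℝ) * ii m π ≤ dd A π (N b) := by
    intro b
    have := dd_ge h (Finset.empty_subset (N b)) (A := A)
    rw [dd_empty h, Finset.card_empty] at this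
    simpa using this
  have h2 := Finset.sum_le_sum fun b (_ : b ∈ (univ : Finset B)) => h1 b
  rw [Finset.sum_sub_distrib, Finset.sum_const, Finset.card_univ, nsmul_eq_mul] at h2
  exact h2

omit h in
/-- all somes -/
def sm (A : Type) [Fintype A] [DecidableEq A] : Finset (Option A) := univ.erase none

omit h in
theorem card_sm : (sm A).card = Fintype.card A := by
  unfold sm
  rw [Finset.card_erase_of_mem (mem_univ _), Finset.card_univ, Fintype.card_option]
  rfl

theorem ent_leaves : ent (st1 A π) (fun ω => ω.2) = ent (st1 A π) (fun ω => mk (sm A) (xv ω)) := by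
  refine ent_fib fun ω ω' => ?_
  rw [mk_eq]
  constructor
  · rintro h1 (_ | a) ha
    · simp [sm] at ha
    · rw [xv_some, xv_some, h1]
  · intro h1
    funext a
    exact h1 (some a) (by simp [sm])

theorem ent_leaves' : ent (st1 A π) (fun ω => (ω.1.1, ω.2)) =
    ent (st1 A π) (fun ω => mk univ (xv ω)) := by
  refine ent_fib fun ω ω' => ?_
  rw [mk_eq, Prod.mk.injEq]
  constructor
  · rintro ⟨h0, h1⟩ (_ | a) _
    · exact h0
    · rw [xv_some, xv_some, h1]
  · intro h1
    exact ⟨h1 none (mem_univ _), funext fun a => h1 (some a) (mem_univ _)⟩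

theorem ent_leaves_le : ent (st1 A π) (fun ω => ω.2) ≤ (Fintype.card A : ℝ) * hm m false := by
  rw [ent_leaves h]
  have h1 := ent_mk_le h (Finset.empty_subset (sm A))
  have h2 : ent (st1 A π) (fun ω => mk ∅ (xv ω)) = 0 := by
    rw [← ent_const' (A := A) h ()]
    refine ent_fib fun ω ω' => ?_
    simp [mk_eq]
  rw [h2, card_sm, Finset.card_empty] at h1
  simpa using h1

theorem ent_leaves_le' : ent (st1 A π) (fun ω => (ω.1.1, ω.2)) ≤
    ((Fintype.card A : ℝ) + 1) * hm m false := by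
  rw [ent_leaves' h]
  have h1 := ent_mk_le h (Finset.empty_subset (univ : Finset (Option A)))
  have h2 : ent (st1 A π) (fun ω => mk ∅ (xv ω)) = 0 := by
    rw [← ent_const' (A := A) h ()]
    refine ent_fib fun ω ω' => ?_
    simp [mk_eq]
  rw [h2, Finset.card_univ, Fintype.card_option, Finset.card_empty] at h1
  push_cast at h1
  linarith

theorem ent_centre_leaves : ent (st1 A π) (fun ω => (ω.1.2, ω.2)) =
    hm m true + (Fintype.card A : ℝ) * (hr π - hm m true) := by
  have h1 := ent_centre_mk h (sm A)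
  rw [card_sm] at h1
  rw [← h1]
  refine ent_fib fun ω ω' => ?_
  simp only [Prod.mk.injEq, mk_eq]
  refine and_congr Iff.rfl ?_
  constructor
  · rintro h1 (_ | a) ha
    · simp [sm] at ha
    · rw [xv_some, xv_some, h1]
  · intro h1
    funext a
    exact h1 (some a) (by simp [sm])

theorem ent_st1' : ent (st1 A π) (fun ω => ω) =
    hm m true + ((Fintype.card A : ℝ) + 1) * (hr π - hm m true) := by
  rw [ent_st1 h, Fintype.card_option]
  push_cast
  ring

/-- abbreviation: the entropies of `f`, `(x₂, f)`, `(y₀, f)` -/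
theorem jl_bound0 : (Fintype.card B + 1 : ℝ) * hm m true + ((Fintype.card A : ℝ) + 1) * hm m false -
    ((Fintype.card A : ℝ) + 1 + (∑ b, (N b).card : ℕ)) * ii m π ≤
      ent (jl π N) (fun ω => ω) := by
  rw [ent_jl h, ent_st1' h]
  have h1 := sum_dd_ge h N
  unfold ii at h1 ⊢
  nlinarith

theorem jl_bound1 : hm m true + hm m false -
    ((Fintype.card A : ℝ) + 1 + (∑ b, kn N b : ℕ)) * ii m π ≤
      ent (jl π N) (fun ω => ω) - ent (jl π N) (fun ω => (ω.1.2, ω.2)) := by
  have h0 : ent (jl π N) (fun ω => (ω.1.2, ω.2)) = ent (jl π N) (fun ω => (((), ω.1.2), ω.2)) := by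
    refine ent_fib fun ω ω' => ?_
    simp only [Prod.mk.injEq, true_and]
  have h1 := ent_jl_le' h N fun _ => ()
  have h2 : ent (st1 A π) (fun ω => ((), ω.2)) = ent (st1 A π) (fun ω => ω.2) := by
    refine ent_fib fun ω ω' => ?_
    simp only [Prod.mk.injEq, true_and]
  rw [h2] at h1
  rw [h0, ent_jl h, ent_st1' h]
  have h3 := sum_dd h N
  have h4 := ent_leaves_le (A := A) h
  unfold ii at h3 ⊢
  nlinarith

theorem jl_bound2 : hm m false - (1 + (∑ b, kn N b : ℕ)) * ii m π ≤
    ent (jl π N) (fun ω => ω) - ent (jl π N) (fun ω => (ω.1.1.2, (ω.1.2, ω.2))) := by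
  have h0 : ent (jl π N) (fun ω => (ω.1.1.2, (ω.1.2, ω.2))) =
      ent (jl π N) (fun ω => ((ω.1.1.2, ω.1.2), ω.2)) := by
    refine ent_fib fun ω ω' => ?_
    simp only [Prod.mk.injEq]
    tauto
  have h1 := ent_jl_le' h N fun ω => ω.1.2
  rw [ent_centre_leaves h] at h1
  rw [h0, ent_jl h, ent_st1' h]
  have h3 := sum_dd h N
  unfold ii at h3 ⊢
  nlinarith

theorem jl_aux : ent (st1 A π) (fun ω => ω) - ent (st1 A π) (fun ω => (ω.1.1, ω.2)) ≤
    ent (jl π N) (fun ω => ω) - ent (jl π N) (fun ω => (ω.1.1.1, (ω.1.2, ω.2))) := by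
  have h0 : ent (jl π N) (fun ω => (ω.1.1.1, (ω.1.2, ω.2))) =
      ent (jl π N) (fun ω => ((ω.1.1.1, ω.1.2), ω.2)) := by
    refine ent_fib fun ω ω' => ?_
    simp only [Prod.mk.injEq]
    tauto
  have h1 := ent_jl_le h N
  rw [h0, ent_jl h]
  linarith

theorem jl_bound3 : hm m true - ((Fintype.card A : ℝ) + 1) * ii m π ≤
    ent (jl π N) (fun ω => ω) - ent (jl π N) (fun ω => (ω.1.1.1, (ω.1.2, ω.2))) := by
  refine le_trans ?_ (jl_aux h N)
  rw [ent_st1' h]
  have := ent_leaves_le' (A := A) h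
  unfold ii
  nlinarith

theorem jl_bound4 : - ii m π ≤
    ent (jl π N) (fun ω => ω) - ent (jl π N) (fun ω => (ω.1.1.1, (ω.1.2, ω.2))) -
      ent (jl π N) (fun ω => (ω.1.1.2, (ω.1.2, ω.2))) + ent (jl π N) (fun ω => (ω.1.2, ω.2)) := by
  have h1 := jl_aux h N
  have h2 := ent_submod (jl_nonneg h N) (fun ω => ω.1.1.2) (fun ω => ω.2) (fun ω => ω.1.2)
  have h3 : ent (jl π N) (fun ω => (ω.1.1.2, ω.2, ω.1.2)) =
      ent (jl π N) (fun ω => (ω.1.1.2, (ω.1.2, ω.2))) := by
    refine ent_fib fun ω ω' => ?_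
    simp only [Prod.mk.injEq]
    tauto
  have h4 : ent (jl π N) (fun ω => (ω.2, ω.1.2)) = ent (jl π N) (fun ω => (ω.1.2, ω.2)) := by
    refine ent_fib fun ω ω' => ?_
    simp only [Prod.mk.injEq]
    tauto
  have h5 : ent (jl π N) (fun ω => (ω.1.1.2, ω.1.2)) = ent (st1 A π) (fun ω => (ω.1.2, ω.2)) :=
    ent_jl_st h N fun ω => (ω.1.2, ω.2)
  have h6 : ent (jl π N) (fun ω => ω.1.2) = ent (st1 A π) (fun ω => ω.2) :=
    ent_jl_st h N fun ω => ω.2
  rw [h3, h4, h5, h6, ent_centre_leaves h, ent_leaves h] at h2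
  rw [ent_st1' h, ent_leaves' h] at h1
  have h7 := ent_mk_le h (Finset.subset_univ (sm A))
  rw [card_sm, Finset.card_univ, Fintype.card_option] at h7
  push_cast at h7
  unfold ii
  linarith

end law

end Vale.Agent.P050.Join
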