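import Vale.Agent.P050.Join.Law
import Vale.Agent.P050.Join.Cond

/-!
The join theorem, for explicit vertex types.
-/

set_option linter.unusedSectionVars false

namespace Vale.Agent.P050.Join

open Finset Vale.Agent.P050.Lev Vale.Agent.P050.Cart

section tc

variable {V U : Type} [Fintype V] [DecidableEq V] [Fintype U] {m : Bool → U → ℝ}
  {s : V → Bool} {ν : (V → U) → ℝ}

/-- the total correlation in terms of entropies -/
theorem tc_eq (hv : ∀ v, ∀ f : U → ℝ, ∑ z, ν z * f (z v) = ∑ x, m (s v) x * f x) :
    tc m s ν = ∑ v, hm m (s v) - ent ν (fun z => z) := by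
  unfold tc hm
  rw [ent_eq]
  simp_rw [mar_id, mul_sub, Finset.mul_sum]
  rw [Finset.sum_sub_distrib, Finset.sum_comm]
  have h1 : ∀ v, ∑ z, ν z * Real.log (m (s v) (z v)) = - ent (m (s v)) (fun x => x) := by
    intro v
    rw [hv v fun x => Real.log (m (s v) x), ent_eq]
    simp_rw [mar_id]
    ring
  rw [Finset.sum_congr rfl fun v _ => h1 v, Finset.sum_neg_distrib]
  ring

end tc

section join

variable {A B C : Type} [Fintype A] [DecidableEq A] [Fintype B] [DecidableEq B] [Fintype C]
  [DecidableEq C]

/-- adjacency in the join -/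
def jadj (R : A → B → Prop) (K : B → Prop) (E : Finset (C × C)) (s : C → Bool) :
    (A ⊕ B) ⊕ C → (A ⊕ B) ⊕ C → Prop
  | Sum.inl (Sum.inl a), Sum.inl (Sum.inr b) => R a b
  | Sum.inl (Sum.inl _), Sum.inr c => s c = true
  | Sum.inr c, Sum.inl (Sum.inr b) => s c = false ∧ K b
  | Sum.inr c, Sum.inr c' => (c, c') ∈ E
  | _, _ => False

/-- the sides of the join -/
def jside (s : C → Bool) : (A ⊕ B) ⊕ C → Bool :=
  Sum.elim (Sum.elim (fun _ => false) fun _ => true) s

open Classical in
/-- the edges of the join -/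
noncomputable def jE (R : A → B → Prop) (K : B → Prop) (E : Finset (C × C)) (s : C → Bool) :
    Finset (((A ⊕ B) ⊕ C) × ((A ⊕ B) ⊕ C)) :=
  univ.filter fun e => jadj R K E s e.1 e.2

open Classical in
/-- the neighbourhood of `b`; `none` stands for the vertices of `C` on the side `false` -/
noncomputable def jN (R : A → B → Prop) (K : B → Prop) (b : B) : Finset (Option A) :=
  univ.filter fun a => a.elim (K b) fun a => R a b

variable {R : A → B → Prop} {K : B → Prop} {E : Finset (C × C)} {s : C → Bool}

theorem mem_jE {v w : (A ⊕ B) ⊕ C} : (v, w) ∈ jE R K E s ↔ jadj R K E s v w := by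
  classical
  simp [jE]

open Classical in
/-- indicator of adjacency -/
noncomputable def jind (R : A → B → Prop) (K : B → Prop) (E : Finset (C × C)) (s : C → Bool) :
    (A ⊕ B) ⊕ C → (A ⊕ B) ⊕ C → ℕ
  | Sum.inl (Sum.inl a), Sum.inl (Sum.inr b) => if R a b then 1 else 0
  | Sum.inl (Sum.inl _), Sum.inr c => if s c = true then 1 else 0
  | Sum.inr c, Sum.inl (Sum.inr b) => if s c = false ∧ K b then 1 else 0
  | Sum.inr c, Sum.inr c' => if (c, c') ∈ E then 1 else 0
  | _, _ => 0

open Classical in
theorem jind_eq (v w : (A ⊕ B) ⊕ C) : (if jadj R K E s v w then 1 else 0) = jind R K E s v w := by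
  rcases v with (a | b) | c <;> rcases w with (a' | b') | c' <;> unfold jadj jind <;> simp

open Classical in
theorem card_jE : (jE R K E s).card = (univ.filter fun p : A × B => R p.1 p.2).card +
    Fintype.card A * (univ.filter fun c => s c = true).card +
    (univ.filter fun c => s c = false).card * (univ.filter K).card + E.card := by
  have h0 : (jE R K E s).card = ∑ v, ∑ w, jind R K E s v w := by
    unfold jE
    rw [Finset.card_filter, Fintype.sum_prod_type]
    exact Finset.sum_congr rfl fun v _ => Finset.sum_congr rfl fun w _ => jind_eq v w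
  rw [h0]
  simp only [Fintype.sum_sum_type, jind, Finset.sum_const_zero, zero_add, add_zero]
  have h1 : ∑ a : A, ((∑ b : B, if R a b then 1 else 0) + ∑ c : C, if s c = true then 1 else 0) =
      (univ.filter fun p : A × B => R p.1 p.2).card +
        Fintype.card A * (univ.filter fun c => s c = true).card := by
    rw [Finset.sum_add_distrib, Finset.card_filter, Fintype.sum_prod_type, Finset.sum_const,
      Finset.card_univ, smul_eq_mul, Finset.card_filter]
  have h2 : ∑ c : C, ((∑ b : B, if s c = false ∧ K b then 1 else 0) +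
      ∑ c' : C, if (c, c') ∈ E then 1 else 0) =
      (univ.filter fun c => s c = false).card * (univ.filter K).card + E.card := by
    rw [Finset.sum_add_distrib]
    congr 1
    · rw [Finset.card_filter, Finset.sum_mul]
      refine Finset.sum_congr rfl fun c _ => ?_
      by_cases hc : s c = false
      · simp only [hc, true_and, if_true, one_mul]
        rw [Finset.card_filter]
      · simp [hc]
    · rw [← Fintype.sum_prod_type fun p : C × C => if p ∈ E then 1 else 0,
        ← Finset.card_filter, Finset.filter_univ_mem]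
  rw [h1, h2]
  ring

open Classical in
theorem kn_jN (b : B) : kn (jN R K) b = if K b then 1 else 0 := by
  unfold kn jN
  simp

open Classical in
theorem sum_kn_jN : ∑ b, kn (jN R K) b = (univ.filter K).card := by
  rw [Finset.card_filter]
  exact Finset.sum_congr rfl fun b _ => kn_jN b

open Classical in
theorem sum_card_jN : ∑ b, (jN R K b).card = (univ.filter fun p : A × B => R p.1 p.2).card +
    (univ.filter K).card := by
  rw [Finset.card_filter, Finset.card_filter, Fintype.sum_prod_type, Finset.sum_comm,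
    ← Finset.sum_add_distrib]
  refine Finset.sum_congr rfl fun b _ => ?_
  unfold jN
  rw [Finset.card_filter, Fintype.sum_option]
  simp only [Option.elim_none, Option.elim_some]
  rw [add_comm]
  congr 1

/-- the five bounds together -/
theorem combine {n k e : ℕ} (hn : 1 ≤ n) (hk : 1 ≤ k) (hne : n ≤ e) (hke : k ≤ e)
    {a b c d hX hY I n1 nB r K : ℝ}
    (L0 : (nB + 1) * hY + (n1 + 1) * hX - (n1 + 1 + (r + K)) * I ≤ a)
    (L1 : hY + hX - (n1 + 1 + K) * I ≤ a - b) (L2 : hX - (1 + K) * I ≤ a - d)
    (L3 : hY - (n1 + 1) * I ≤ a - c) (L4 : - I ≤ a - c - d + b) :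
    (n1 + n) * hX + (nB + k) * hY - (r + n1 * k + n * K + e) * I ≤
      b + (n * (c - b) + k * (d - b)) - e * (c + d - b - a) := by
  obtain ⟨p, q, t, w, h1, h2, h3⟩ : ∃ p q t w : ℕ, n = 1 + p + q ∧ k = 1 + p + t ∧
      e = 1 + p + q + t + w := by
    refine ⟨n + k - 1 - e, n - 1 - (n + k - 1 - e), k - 1 - (n + k - 1 - e),
      e + 1 + (n + k - 1 - e) - n - k, ?_, ?_, ?_⟩ <;> omega
  have g1 := mul_le_mul_of_nonneg_left L1 (Nat.cast_nonneg (α := ℝ) p)
  have g2 := mul_le_mul_of_nonneg_left L2 (Nat.cast_nonneg (α := ℝ) q)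
  have g3 := mul_le_mul_of_nonneg_left L3 (Nat.cast_nonneg (α := ℝ) t)
  have g4 := mul_le_mul_of_nonneg_left L4 (Nat.cast_nonneg (α := ℝ) w)
  rw [h1, h2, h3]
  push_cast
  nlinarith

/-- **The join theorem**, for explicit vertex types. -/
theorem KSid.join (hE : KSid E s) (hn : 1 ≤ (univ.filter fun c => s c = false).card)
    (hk : 1 ≤ (univ.filter fun c => s c = true).card)
    (hne : (univ.filter fun c => s c = false).card ≤ E.card)
    (hke : (univ.filter fun c => s c = true).card ≤ E.card) (R : A → B → Prop) (K : B → Prop) :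
    KSid (jE R K E s) (jside s) := by
  classical
  refine ksid_of_sidLaw ?_ ?_
  · rintro ⟨v, w⟩ he
    rw [mem_jE] at he
    rcases v with (a | b) | c <;> rcases w with (a' | b') | c' <;>
      simp only [jadj] at he <;> simp only [jside, Sum.elim_inl, Sum.elim_inr, and_self, true_and,
        and_true] <;> first
      | exact he
      | exact he.1
      | exact hE.1 _ he
  intro U _ m π m0 m1 pi0 row col
  have h : Base m π := { m0 := m0, m1 := m1, pi0 := pi0, row := row, col := col }
  set N := jN R K with hN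
  set P := jl π N with hP
  have hP0 : ∀ ω, 0 ≤ P ω := jl_nonneg h N
  set fn : ((U × U) × (A → U)) × (B → U) → ((A → U) × (B → U)) × U × U :=
    fun ω => ((ω.1.2, ω.2), ω.1.1.1, ω.1.1.2) with hfn
  set L := mar P fn with hLdef
  have hL : ∀ ω, 0 ≤ L ω := mar_nonneg hP0 _
  have hL1 : ∑ ω, L ω = 1 := by rw [hLdef, mar_total, hP, jl_total h N]
  obtain ⟨μ, hμ⟩ := exists_mu hL hE
  set Λ := lam L μ with hΛ
  let e : ((A ⊕ B) ⊕ C → U) ≃ ((A → U) × (B → U)) × (C → U) :=
    { toFun := fun w => ((fun a => w (Sum.inl (Sum.inl a)), fun b => w (Sum.inl (Sum.inr b))),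
        fun c => w (Sum.inr c))
      invFun := fun x => Sum.elim (Sum.elim x.1.1 x.1.2) x.2
      left_inv := fun w => by
        funext v
        rcases v with (a | b) | c <;> rfl
      right_inv := fun x => rfl }
  have hsum : ∀ F : ((A → U) × (B → U)) × (C → U) → ℝ, ∑ w, Λ (e w) * F (e w) = ∑ x, Λ x * F x :=
    fun F => Equiv.sum_comp e fun x => Λ x * F x
  have hLP : ∀ F : ((A → U) × (B → U)) × U × U → ℝ, ∑ ω, L ω * F ω = ∑ ω, P ω * F (fn ω) :=
    sum_mar P fn
  -- expectations of the three kinds
  have q1 : ∀ F : (A → U) × (B → U) → ℝ, ∑ w, Λ (e w) * F (e w).1 = ∑ ω, P ω * F (ω.1.2, ω.2) := by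
    intro F
    rw [hsum fun x => F x.1, sum_lam hL hμ F, hLP fun ω => F ω.1]
  have q2 : ∀ (v : C) (F : (A → U) × (B → U) → U → ℝ),
      ∑ w, Λ (e w) * F (e w).1 ((e w).2 v) =
        ∑ ω, P ω * F (ω.1.2, ω.2) (if s v then ω.1.1.2 else ω.1.1.1) := by
    intro v F
    rw [hsum fun x => F x.1 (x.2 v), sum_lam_vertex hL hμ v F,
      hLP fun ω => F ω.1 (if s v then ω.2.2 else ω.2.1)]
  have q3 : ∀ (c : C × C), c ∈ E → ∀ F : U → U → ℝ,
      ∑ w, Λ (e w) * F ((e w).2 c.1) ((e w).2 c.2) = ∑ ω, P ω * F ω.1.1.1 ω.1.1.2 := by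
    intro c hc F
    rw [hsum fun x => F (x.2 c.1) (x.2 c.2), sum_lam_edge hL hμ hc fun _ => F,
      hLP fun ω => F ω.2.1 ω.2.2]
  have hx : ∀ F : U → ℝ, ∑ ω, P ω * F ω.1.1.1 = ∑ x, m false x * F x := by
    intro F
    refine (jl_edge h N none fun x _ => F x).trans ?_
    refine Finset.sum_congr rfl fun x _ => ?_
    rw [← Finset.sum_mul, h.row]
  have hy : ∀ F : U → ℝ, ∑ ω, P ω * F ω.1.1.2 = ∑ x, m true x * F x := by
    intro F
    refine (jl_edge h N none fun _ y => F y).trans ?_
    rw [Finset.sum_comm]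
    refine Finset.sum_congr rfl fun y _ => ?_
    rw [← Finset.sum_mul, h.col]
  have hxa : ∀ (a : A) (F : U → ℝ), ∑ ω, P ω * F (ω.1.2 a) = ∑ x, m false x * F x := by
    intro a F
    refine (jl_edge h N (some a) fun x _ => F x).trans ?_
    refine Finset.sum_congr rfl fun x _ => ?_
    rw [← Finset.sum_mul, h.row]
  have hvert : ∀ v : (A ⊕ B) ⊕ C, ∀ f : U → ℝ,
      ∑ w : (A ⊕ B) ⊕ C → U, Λ (e w) * f (w v) = ∑ x, m (jside s v) x * f x := by
    rintro ((a | b) | c) f
    · exact (q1 fun p => f (p.1 a)).trans (hxa a f)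
    · exact (q1 fun p => f (p.2 b)).trans (jl_vertex h N b f)
    · refine (q2 c fun _ => f).trans ?_
      simp only [jside, Sum.elim_inr]
      cases hc : s c
      · simpa [hc] using hx f
      · simpa [hc] using hy f
  refine ⟨fun w => Λ (e w), fun w => lam_nonneg hL hμ _, ?_, hvert, ?_, ?_⟩
  · have := hsum fun _ => 1
    simp only [mul_one] at this
    rw [this]
    exact lam_total hL hμ hL1
  · rintro ⟨v, w⟩ he f
    rw [mem_jE] at he
    rcases v with (a | b) | c <;> rcases w with (a' | b') | c' <;> simp only [jadj] at he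
    · refine (q1 fun p => f (p.1 a) (p.2 b')).trans ?_
      exact jl_edge' h N b' (a := some a) (by simpa [hN, jN] using he) f
    · refine (q2 c' fun p u => f (p.1 a) u).trans ?_
      simp only [he, if_true]
      exact jl_edge h N (some a) f
    · refine (q2 c fun p u => f u (p.2 b')).trans ?_
      simp only [he.1, Bool.false_eq_true, if_false]
      exact jl_edge' h N b' (a := none) (by simpa [hN, jN] using he.2) f
    · refine (q3 (c, c') he f).trans ?_
      exact jl_edge h N none f
  · rw [tc_eq hvert, inf_eq h]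
    have hent : ent (fun w => Λ (e w)) (fun w => w) = ent Λ (fun x => x) := by
      rw [ent_eq, ent_eq]
      simp_rw [mar_id]
      rw [hsum fun x => Real.log (Λ x)]
    rw [hent]
    have key := ent_lam hL hμ
    have r1 : ent L (fun ω => ω.1) = ent P (fun ω => (ω.1.2, ω.2)) := ent_mar P fn _
    have r2 : ∀ b : Bool, ent L (fun ω => (ω.1, if b then ω.2.2 else ω.2.1)) =
        ent P (fun ω => (if b then ω.1.1.2 else ω.1.1.1, (ω.1.2, ω.2))) := by
      intro b
      rw [hLdef, ent_mar P fn]
      refine ent_fib fun ω ω' => ?_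
      simp only [hfn, Prod.mk.injEq]
      tauto
    have r3 : ent L (fun ω => (ω.1, ω.2.1)) = ent P (fun ω => (ω.1.1.1, (ω.1.2, ω.2))) := by
      have := r2 false
      simpa using this
    have r4 : ent L (fun ω => (ω.1, ω.2.2)) = ent P (fun ω => (ω.1.1.2, (ω.1.2, ω.2))) := by
      have := r2 true
      simpa using this
    have r5 : ent L (fun ω => ω) = ent P (fun ω => ω) := by
      rw [hLdef, ent_mar P fn]
      refine ent_fib fun ω ω' => ?_
      simp only [hfn, Prod.ext_iff]
      tauto
    rw [sum_side s fun b => ent L (fun ω => (ω.1, if b then ω.2.2 else ω.2.1)) -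
      ent L (fun ω => ω.1)] at key
    simp only [Bool.false_eq_true, if_false, if_true] at key
    rw [r1, r3, r4, r5] at key
    have b0 := jl_bound0 h N
    have b1 := jl_bound1 h N
    have b2 := jl_bound2 h N
    have b3 := jl_bound3 h N
    have b4 := jl_bound4 h N
    rw [hN, sum_card_jN] at b0
    rw [hN, sum_kn_jN] at b1 b2
    push_cast at b0
    have key2 := combine hn hk hne hke b0 b1 b2 b3 b4
    rw [card_jE]
    have hs : ∑ v : (A ⊕ B) ⊕ C, hm m (jside s v) =
        ((Fintype.card A : ℝ) + (univ.filter fun c => s c = false).card) * hm m false +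
        ((Fintype.card B : ℝ) + (univ.filter fun c => s c = true).card) * hm m true := by
      simp only [Fintype.sum_sum_type, jside, Sum.elim_inl, Sum.elim_inr, Finset.sum_const,
        Finset.card_univ, nsmul_eq_mul]
      rw [sum_side s fun b => hm m b]
      ring
    rw [hs]
    push_cast
    rw [hP, hN] at key
    linarith

end join

end Vale.Agent.P050.Join
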