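import Vale.Agent.P050.Join.Copy
import Vale.Agent.P050.Cart.Star
import Vale.Agent.P050.Cart.Pot

/-!
The law of a star with a dominating centre `y₀`, leaves `x_a` (`a ∈ Option A`), and conditionally
independent copies of the centre given sets of leaves.
-/

set_option linter.unusedSectionVars false

namespace Vale.Agent.P050.Join

open Finset Vale.Agent.P050.Cart

section star

variable {A U : Type} [Fintype A] [DecidableEq A] [Fintype U] {m : Bool → U → ℝ}
  {π : U → U → ℝ}

/-- the law of an edge -/
def pb (π : U → U → ℝ) (p : U × U) : ℝ := π p.1 p.2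

/-- the law of `((x₂, y₀), (x_a)_a)` -/
noncomputable def st1 (A : Type) [Fintype A] (π : U → U → ℝ) : (U × U) × (A → U) → ℝ :=
  cpy (pb π) (fun _ : A => Prod.snd) Prod.fst

/-- the leaves -/
def xv (ω : (U × U) × (A → U)) : Option A → U := fun a => a.elim ω.1.1 ω.2

/-- the coordinates in `S` -/
def mk (S : Finset (Option A)) (g : Option A → U) : Option A → Option U :=
  fun a => if a ∈ S then some (g a) else none

theorem mk_eq {S : Finset (Option A)} {g g' : Option A → U} :
    mk S g = mk S g' ↔ ∀ a ∈ S, g a = g' a := by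
  unfold mk
  rw [funext_iff]
  refine forall_congr' fun a => ?_
  by_cases h : a ∈ S
  · simp [h]
  · simp [h]

theorem xv_none (ω : (U × U) × (A → U)) : xv ω none = ω.1.1 := rfl

theorem xv_some (ω : (U × U) × (A → U)) (a : A) : xv ω (some a) = ω.2 a := rfl

variable (h : Base m π)

include h

theorem pb_nonneg (p : U × U) : 0 ≤ pb π p := h.pi0 _ _

theorem pb_total : ∑ p, pb π p = 1 := by
  rw [Fintype.sum_prod_type]
  unfold pb
  simp_rw [h.row]
  exact h.m1 false

theorem ent_pb : ent (pb π) (fun p => p) = hr π := rfl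

theorem ent_pb_swap : ent (pb π) (fun p => (p.2, p.1)) = hr π := by
  rw [← ent_pb h]
  exact ent_fib fun ω ω' => by
    simp only [Prod.ext_iff]
    tauto

theorem ent_pb_snd : ent (pb π) (fun p => p.2) = hm m true := by
  unfold hm
  refine ent_law fun a => ?_
  rw [mar_id]
  classical
  unfold mar pb
  rw [Fintype.sum_prod_type]
  simp only [Finset.sum_ite_eq', Finset.mem_univ, if_true]
  exact h.col a

theorem ent_pb_fst : ent (pb π) (fun p => p.1) = hm m false := by
  unfold hm
  refine ent_law fun a => ?_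
  rw [mar_id]
  classical
  unfold mar pb
  rw [Fintype.sum_prod_type, Finset.sum_comm]
  simp only [Finset.sum_ite_eq', Finset.mem_univ, if_true]
  exact h.row a

theorem st1_nonneg (ω) : 0 ≤ st1 A π ω := cpy_nonneg (pb_nonneg h) _ _ _

theorem st1_total : ∑ ω, st1 A π ω = 1 := cpy_total (pb_nonneg h) _ _ (pb_total h)

/-- a leaf and the centre form an edge -/
theorem st1_edge (a : Option A) (F : U → U → ℝ) :
    ∑ ω, st1 A π ω * F (xv ω a) ω.1.2 = ∑ x, ∑ y, π x y * F x y := by
  rcases a with _ | a
  · have := sum_cpy (pb_nonneg h) (fun _ : A => Prod.snd) Prod.fst fun p => F p.1 p.2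
    rw [Fintype.sum_prod_type (f := fun p : U × U => pb π p * F p.1 p.2)] at this
    exact this
  · have := sum_cpy_pair (pb_nonneg h) (fun _ : A => Prod.snd) Prod.fst a fun y x => F x y
    rw [Fintype.sum_prod_type (f := fun p : U × U => pb π p * F p.1 p.2)] at this
    exact this

theorem ent_leaf (a : Option A) : ent (st1 A π) (fun ω => xv ω a) = hm m false := by
  rw [← ent_pb_fst h]
  refine ent_law fun u => mar_of_sum (fun F => ?_) u
  rw [st1_edge h a fun x _ => F x, Fintype.sum_prod_type]
  rfl

theorem ent_centre : ent (st1 A π) (fun ω => ω.1.2) = hm m true := by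
  rw [← ent_pb_snd h]
  refine ent_law fun u => mar_of_sum (fun F => ?_) u
  rw [st1_edge h none fun _ y => F y, Fintype.sum_prod_type]
  rfl

theorem ent_centre_leaf (a : Option A) : ent (st1 A π) (fun ω => (ω.1.2, xv ω a)) = hr π := by
  rw [← ent_pb_swap h]
  refine ent_law fun u => mar_of_sum (fun F => ?_) u
  rw [st1_edge h a fun x y => F (y, x), Fintype.sum_prod_type]
  rfl

theorem ent_st1 : ent (st1 A π) (fun ω => ω) =
    hm m true + (Fintype.card (Option A) : ℝ) * (hr π - hm m true) := by
  unfold st1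
  rw [ent_cpy (pb_nonneg h)]
  simp only [ent_pb_swap h, Finset.sum_const, Finset.card_univ, nsmul_eq_mul]
  rw [ent_pb h, ent_pb_snd h, Fintype.card_option]
  push_cast
  ring

theorem ent_const' {α : Type} [Fintype α] (a : α) : ent (st1 A π) (fun _ => a) = 0 := by
  rw [ent_eq]
  have : mar (st1 A π) (fun _ => a) a = 1 := by
    unfold mar
    simp [st1_total h]
  simp [this]

/-- entropy of the centre and some leaves: upper bound -/
theorem ent_centre_mk_le (S : Finset (Option A)) :
    ent (st1 A π) (fun ω => (ω.1.2, mk S (xv ω))) ≤ hm m true + (S.card : ℝ) * (hr π - hm m true) := by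
  have h1 := ent_chain (st1_nonneg h) (st1_total h) (fun ω => ω.1.2) (fun ω => mk S (xv ω))
    (fun _ y => y)
  refine h1.trans ?_
  rw [ent_centre h, add_le_add_iff_left]
  have h2 : ∀ a, ent (st1 A π) (fun ω => (ω.1.2, mk S (xv ω) a)) - hm m true =
      if a ∈ S then hr π - hm m true else 0 := by
    intro a
    by_cases ha : a ∈ S
    · rw [if_pos ha, ← ent_centre_leaf h a]
      congr 1
      refine ent_fib fun ω ω' => ?_
      simp only [mk, ha, if_true, Prod.mk.injEq, Option.some.injEq]
    · rw [if_neg ha, ← ent_centre (A := A) h, sub_eq_zero]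
      refine ent_fib fun ω ω' => ?_
      simp only [mk, ha, if_false, Prod.mk.injEq, and_true]
  rw [Finset.sum_congr rfl fun a _ => h2 a]
  rw [Finset.sum_ite_mem, Finset.univ_inter, Finset.sum_const, nsmul_eq_mul]

/-- entropy of the centre and some leaves -/
theorem ent_centre_mk (S : Finset (Option A)) :
    ent (st1 A π) (fun ω => (ω.1.2, mk S (xv ω))) = hm m true + (S.card : ℝ) * (hr π - hm m true) := by
  refine le_antisymm (ent_centre_mk_le h S) ?_
  have h1 := ent_chain (st1_nonneg h) (st1_total h) (fun ω => (ω.1.2, mk S (xv ω)))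
    (fun ω => mk Sᶜ (xv ω)) (fun _ p => p.1)
  have h2 : ent (st1 A π) (fun ω => ((ω.1.2, mk S (xv ω)), mk Sᶜ (xv ω))) =
      ent (st1 A π) (fun ω => ω) := by
    refine ent_fib fun ω ω' => ?_
    simp only [Prod.mk.injEq, mk_eq, Finset.mem_compl]
    constructor
    · rintro ⟨⟨h1, h2⟩, h3⟩
      have h4 : ∀ a, xv ω a = xv ω' a := fun a => by
        by_cases ha : a ∈ S
        · exact h2 a ha
        · exact h3 a ha
      exact Prod.ext (Prod.ext (h4 none) h1) (funext fun a => h4 (some a))
    · rintro rfl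
      exact ⟨⟨rfl, fun _ _ => rfl⟩, fun _ _ => rfl⟩
  rw [h2, ent_st1 h] at h1
  have h3 : ∀ a, ent (st1 A π) (fun ω => (ω.1.2, mk Sᶜ (xv ω) a)) -
      ent (st1 A π) (fun ω => ω.1.2) = if a ∈ Sᶜ then hr π - hm m true else 0 := by
    intro a
    by_cases ha : a ∈ Sᶜ
    · rw [if_pos ha, ← ent_centre_leaf h a, ent_centre h]
      congr 1
      refine ent_fib fun ω ω' => ?_
      simp only [mk, ha, if_true, Prod.mk.injEq, Option.some.injEq]
    · rw [if_neg ha, sub_eq_zero]
      refine ent_fib fun ω ω' => ?_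
      simp only [mk, ha, if_false, Prod.mk.injEq, and_true]
  rw [Finset.sum_congr rfl fun a _ => h3 a] at h1
  rw [Finset.sum_ite_mem, Finset.univ_inter, Finset.sum_const, nsmul_eq_mul] at h1
  have h4 : (S.card : ℝ) + (Sᶜ.card : ℝ) = Fintype.card (Option A) := by
    rw [← Nat.cast_add, Finset.card_add_card_compl]
  rw [← h4] at h1
  linarith

/-- entropy of leaves -/
theorem ent_mk_le {S S' : Finset (Option A)} (hS : S' ⊆ S) :
    ent (st1 A π) (fun ω => mk S (xv ω)) ≤ ent (st1 A π) (fun ω => mk S' (xv ω)) +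
      ((S.card : ℝ) - S'.card) * hm m false := by
  have h1 := ent_chain (st1_nonneg h) (st1_total h) (fun ω => mk S' (xv ω))
    (fun ω => mk (S \ S') (xv ω)) (fun _ _ => ())
  have h2 : ent (st1 A π) (fun ω => (mk S' (xv ω), mk (S \ S') (xv ω))) =
      ent (st1 A π) (fun ω => mk S (xv ω)) := by
    refine ent_fib fun ω ω' => ?_
    simp only [Prod.mk.injEq, mk_eq, Finset.mem_sdiff]
    constructor
    · rintro ⟨h1, h2⟩ a ha
      by_cases ha' : a ∈ S'
      · exact h1 a ha'
      · exact h2 a ⟨ha, ha'⟩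
    · intro h1
      exact ⟨fun a ha => h1 a (hS ha), fun a ha => h1 a ha.1⟩
  rw [h2, ent_const' h] at h1
  refine h1.trans ?_
  rw [add_le_add_iff_left]
  have h3 : ∀ a, ent (st1 A π) (fun ω => ((), mk (S \ S') (xv ω) a)) - 0 =
      if a ∈ S \ S' then hm m false else 0 := by
    intro a
    rw [sub_zero]
    by_cases ha : a ∈ S \ S'
    · rw [if_pos ha, ← ent_leaf h a]
      refine ent_fib fun ω ω' => ?_
      simp only [mk, ha, if_true, Prod.mk.injEq, Option.some.injEq, true_and]
    · rw [if_neg ha, ← ent_const' (A := A) h ()]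
      refine ent_fib fun ω ω' => ?_
      simp only [mk, ha, if_false, and_self]
  rw [Finset.sum_congr rfl fun a _ => h3 a]
  rw [Finset.sum_ite_mem, Finset.univ_inter, Finset.sum_const, nsmul_eq_mul,
    Finset.card_sdiff_of_subset hS, Nat.cast_sub (Finset.card_le_card hS)]

omit h in
/-- the conditional entropy of the centre given leaves -/
noncomputable def dd (A : Type) [Fintype A] [DecidableEq A] (π : U → U → ℝ)
    (S : Finset (Option A)) : ℝ :=
  ent (st1 A π) (fun ω => (mk S (xv ω), ω.1.2)) - ent (st1 A π) (fun ω => mk S (xv ω))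

theorem dd_eq (S : Finset (Option A)) : dd A π S = hm m true + (S.card : ℝ) * (hr π - hm m true) -
    ent (st1 A π) (fun ω => mk S (xv ω)) := by
  unfold dd
  rw [← ent_centre_mk h S]
  congr 1
  refine ent_fib fun ω ω' => ?_
  simp only [Prod.mk.injEq]
  tauto

theorem dd_ge {S S' : Finset (Option A)} (hS : S' ⊆ S) :
    dd A π S' - ((S.card : ℝ) - S'.card) * ii m π ≤ dd A π S := by
  rw [dd_eq h, dd_eq h]
  have := ent_mk_le h hS
  unfold ii
  nlinarith

theorem dd_empty : dd A π ∅ = hm m true := by
  rw [dd_eq h]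
  have : ent (st1 A π) (fun ω => mk ∅ (xv ω)) = 0 := by
    rw [← ent_const' (A := A) h ()]
    refine ent_fib fun ω ω' => ?_
    simp [mk_eq]
  rw [this]
  simp

end star

end Vale.Agent.P050.Join
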